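import Vale.Agent.P366RB.Defs
import Vale.Agent.P366Z.Asy
import Mathlib.Analysis.Matrix.Order
import Mathlib.Analysis.SpecialFunctions.Pow.Asymptotics

/-!
# P366EN: orders of decay, linear changes of the coordinates, fluxes
-/

open MeasureTheory Filter Topology Set Asymptotics Metric
open scoped ContDiff MatrixOrder Matrix
open Vale.Agent.P366.Stmt Vale.Agent.P366Z

noncomputable section

namespace Vale.Agent.P366EN

variable {n : ℕ} {a b q c : ℝ} {f g : E n → ℝ}

theorem ev_iff {p : E n → Prop} :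
    (∀ᶠ x in cocompact (E n), p x) ↔ ∃ R, ∀ x, R < ‖x‖ → p x := by
  refine ⟨fun h => ?_, fun ⟨R, h⟩ => (AsyF.far (R + 1)).mono fun x hx => h x (by linarith)⟩
  rw [← cobounded_eq_cocompact, ← comap_norm_atTop, eventually_comap, eventually_atTop] at h
  obtain ⟨R, h⟩ := h
  exact ⟨R, fun x hx => h _ hx.le x rfl⟩

theorem ev_ev {p : E n → Prop} (h : ∀ᶠ x in cocompact (E n), p x) :
    ∀ᶠ x in cocompact (E n), ∀ᶠ y in 𝓝 x, p y := by
  obtain ⟨R, h⟩ := ev_iff.1 h
  exact ev_iff.2 ⟨R, fun x hx =>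
    ((isOpen_lt continuous_const continuous_norm).eventually_mem hx).mono h⟩

theorem ev_pd (h : f =ᶠ[cocompact (E n)] g) (i : Fin n) : pd i f =ᶠ[cocompact (E n)] pd i g :=
  (ev_ev h).mono fun _ k => pd_congr k i

theorem ev_pos : ∀ᶠ x in cocompact (E n), 0 < ‖x‖ := ev_iff.2 ⟨0, fun _ h => h⟩

/-- decay of the order `q` -/
def Bo (q : ℝ) (f : E n → ℝ) : Prop := f =O[cocompact (E n)] fun x => ‖x‖ ^ (-q)

theorem bo_iff : BigO q f ↔ Bo q f := by
  refine ⟨fun ⟨C, R, h⟩ => IsBigO.of_bound C (ev_iff.2 ⟨R, fun x hx => ?_⟩), fun h => ?_⟩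
  · rw [Real.norm_of_nonneg (r := _ ^ _) (by positivity)]
    exact h x hx
  · obtain ⟨C, h⟩ := h.bound
    obtain ⟨R, h⟩ := ev_iff.1 h
    refine ⟨C, R, fun x hx => ?_⟩
    have := h x hx
    rwa [Real.norm_of_nonneg (r := _ ^ _) (by positivity)] at this

namespace Bo

theorem congr (h : Bo q f) (e : g =ᶠ[cocompact (E n)] f) : Bo q g := e.trans_isBigO h
theorem add (h : Bo q f) (k : Bo q g) : Bo q fun x => f x + g x := IsBigO.add h k
theorem sub (h : Bo q f) (k : Bo q g) : Bo q fun x => f x - g x := IsBigO.sub h k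
theorem cm (c : ℝ) (h : Bo q f) : Bo q fun x => c * f x := IsBigO.const_mul_left h c
theorem sum {ι : Type} [Fintype ι] {F : ι → E n → ℝ} (h : ∀ i, Bo q (F i)) :
    Bo q fun x => ∑ i, F i x :=
  (IsBigO.sum (s := Finset.univ) fun i _ => h i).congr_left fun x => Finset.sum_apply x _ F

theorem mono (h : Bo a f) (e : b ≤ a) : Bo b f :=
  IsBigO.trans h (IsBigO.of_bound' ((AsyF.far 1).mono fun x hx => by
    rw [Real.norm_of_nonneg (by positivity), Real.norm_of_nonneg (by positivity)]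
    exact Real.rpow_le_rpow_of_exponent_le hx (by linarith)))

theorem mul (h : Bo a f) (k : Bo b g) (e : q ≤ a + b) : Bo q fun x => f x * g x :=
  mono (a := a + b) ((IsBigO.mul h k).congr' EventuallyEq.rfl (ev_pos.mono fun x hx => by
    simp only [← Real.rpow_add hx, neg_add])) e

theorem lim0 (h : Bo q f) (hq : 0 < q) : Tendsto f (cocompact (E n)) (𝓝 0) :=
  IsBigO.trans_tendsto h ((tendsto_rpow_neg_atTop hq).comp (tendsto_norm_cocompact_atTop (E := E n)))

/-- the leading coefficient -/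
theorem lim (h : Bo (q + a) fun x => f x - c * ‖x‖ ^ (-q)) (ha : 0 < a) :
    Tendsto (fun x => f x * ‖x‖ ^ q) (cocompact (E n)) (𝓝 c) := by
  have k : Bo (-q) fun x : E n => ‖x‖ ^ q := by
    simp only [Bo, neg_neg]
    exact isBigO_refl _ _
  refine tendsto_sub_nhds_zero_iff.1 (((h.mul k (q := a) (by linarith)).lim0 ha).congr'
    (ev_pos.mono fun x hx => ?_))
  simp only [sub_mul, mul_assoc, ← Real.rpow_add hx, neg_add_cancel, Real.rpow_zero, mul_one]

theorem comp (h : Bo q f) (e : E n ≃L[ℝ] E n) : Bo q fun x => f (e x) :=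
  (IsBigO.comp_tendsto h e.toHomeomorph.isClosedEmbedding.tendsto_cocompact).trans
    (IsTheta.rpow (.of_forall fun _ => norm_nonneg _) (.of_forall fun _ => norm_nonneg _)
      ⟨(e.isBigO_comp id _).norm_norm, (e.isBigO_comp_rev id _).norm_norm⟩).1

end Bo

theorem bo_mod (c : ℝ) (i : Fin n) : Bo (n - 1) fun x : E n => c * x i * ‖x‖ ^ (-n : ℝ) := by
  have k : Bo (-1) fun x : E n => x i := by
    simp only [Bo, neg_neg, Real.rpow_one]
    exact IsBigO.of_bound' (.of_forall fun x => (AsyF.abs_coord x i).trans_eq (norm_norm x).symm)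
  exact (k.cm c).mul (b := n) (isBigO_refl _ _) (by linarith)

/-- a function which is smooth far out has a smooth extension -/
theorem ext (h : ∀ᶠ x in cocompact (E n), ContDiffAt ℝ ∞ f x) :
    ∃ g, Smooth g ∧ g =ᶠ[cocompact (E n)] f := by
  obtain ⟨R, h⟩ := ev_iff.1 h
  have p : 0 < |R| + 1 := by positivity
  refine ⟨fun x => (1 - cut (|R| + 1) x) * f x, contDiff_iff_contDiffAt.2 fun x => ?_,
    ev_iff.2 ⟨2 * (|R| + 1), fun x hx => by simp [cut_zero p hx.le]⟩⟩
  rcases lt_or_ge R ‖x‖ with k | k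
  · exact (contDiff_const.sub (sm_cut _)).contDiffAt.mul (h x k)
  · refine (contDiffAt_const (c := 0)).congr_of_eventuallyEq ?_
    filter_upwards [(isOpen_lt continuous_norm continuous_const).eventually_mem
      (show ‖x‖ < |R| + 1 by linarith [le_abs_self R])] with y hy
    simp [cut_one (le_of_lt hy)]

/-! ### linear maps -/

/-- the linear map with the matrix `A` -/
abbrev lm (A : Matrix (Fin n) (Fin n) ℝ) : E n →L[ℝ] E n := Matrix.toEuclideanCLM (𝕜 := ℝ) A

variable {A B : Matrix (Fin n) (Fin n) ℝ} {x : E n}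

theorem pd_lm (hf : DifferentiableAt ℝ f (lm A x)) (i : Fin n) :
    pd i (fun y => f (lm A y)) x = ∑ j, A j i * pd j f (lm A x) := by
  refine (pd_of_hasFDerivAt (hf.hasFDerivAt.comp x (lm A).hasFDerivAt) i).trans ?_
  rw [ContinuousLinearMap.comp_apply, fderiv_eq_sum hf]
  simp [Matrix.ofLp_toEuclideanCLM]

theorem lm_lm (h : A * B = 1) (x : E n) : lm A (lm B x) = x := by
  rw [← mul_apply_eq_comp, ← map_mul, h, map_one, one_apply_eq_self]

/-- the linear equivalence -/
def le (h : A * B = 1) : E n ≃L[ℝ] E n :=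
  ContinuousLinearEquiv.equivOfInverse (lm A) (lm B) (lm_lm (mul_eq_one_comm.1 h)) (lm_lm h)

theorem int_lm (h : A * B = 1) (F : E n → ℝ) : ∫ x, F (lm A x) = |A.det|⁻¹ * ∫ x, F x := by
  have d : LinearMap.det (lm A : E n →ₗ[ℝ] E n) = A.det := LinearMap.det_toLpLin 2 A
  have m := Measure.map_linearMap_addHaar_eq_smul_addHaar (f := (lm A : E n →ₗ[ℝ] E n)) volume
    (d ▸ Matrix.det_ne_zero_of_right_inverse h)
  have k := integral_map_equiv (μ := (volume : Measure (E n)))
    (le h).toHomeomorph.toMeasurableEquiv F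
  rw [show (volume : Measure (E n)).map (le h).toHomeomorph.toMeasurableEquiv = _ from m,
    integral_smul_measure, ENNReal.toReal_ofReal (abs_nonneg _), smul_eq_mul, d, abs_inv] at k
  exact k.symm

theorem ex_root {h : Matrix (Fin n) (Fin n) ℝ} (p : h.PosDef) :
    ∃ A B : Matrix (Fin n) (Fin n) ℝ, A * B = 1 ∧ h⁻¹ = B * Bᵀ ∧ √h.det = |A.det| := by
  obtain ⟨A, u, rfl⟩ := CStarAlgebra.isStrictlyPositive_iff_eq_star_mul_self.mp p.isStrictlyPositive
  refine ⟨A, A⁻¹, Matrix.mul_nonsing_inv _ ((Matrix.isUnit_iff_isUnit_det _).1 u), ?_, ?_⟩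
  · rw [Matrix.mul_inv_rev, Matrix.star_eq_conjTranspose, Matrix.conjTranspose_eq_transpose_of_trivial,
      Matrix.transpose_nonsing_inv]
  · rw [Matrix.star_eq_conjTranspose, Matrix.conjTranspose_eq_transpose_of_trivial, Matrix.det_mul,
      Matrix.det_transpose, Real.sqrt_mul_self_eq_abs]

/-! ### fluxes -/

/-- the flux of a field which is free of divergence far out -/
theorem flux_eq {W : Fin n → E n → ℝ} (hW : ∀ i, Smooth (W i)) {R : ℝ}
    (h : ∀ y, R < ‖y‖ → ∑ i, pd i (W i) y = 0) {φ ψ : E n → ℝ} (h1 : Smooth φ) (h2 : Smooth ψ)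
    (c1 : HasCompactSupport φ) (c2 : HasCompactSupport ψ) (e : ∀ y, ‖y‖ ≤ R → φ y = ψ y) :
    ∫ y, ∑ i, pd i φ y * W i y = ∫ y, ∑ i, pd i ψ y * W i y := by
  have k : ∀ {φ : E n → ℝ}, Smooth φ → HasCompactSupport φ →
      ∫ y, ∑ i, pd i φ y * W i y = -∫ y, φ y * ∑ i, pd i (W i) y := fun {φ} s c => by
    have l := lip_of_supp (ContDiff.of_le s (by norm_cast)) c
    obtain ⟨r, -, o⟩ := out_of_supp c
    simp only [Finset.mul_sum]
    rw [integral_finsetSum, integral_finsetSum, ← Finset.sum_neg_distrib]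
    · exact Finset.sum_congr rfl fun i _ => by
        rw [ibp l c (ContDiff.of_le (hW i) (by norm_cast)) i, neg_neg]
    · exact fun i _ => (s.cont.mul ((hW i).pd i).cont).integrable_of_hasCompactSupport c.mul_right
    · exact fun i _ => by simpa only [mul_comm] using l.integrable_pd o (hW i).cont i
  rw [k h1 c1, k h2 c2]
  refine congrArg _ (integral_congr_ae (.of_forall fun y => ?_))
  rcases lt_or_ge R ‖y‖ with r | r
  · simp only [h y r, mul_zero]
  · simp only [e y r]

/-- the flux at infinity -/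
theorem flux_lim (hn : 0 < n) {X : Fin n → E n → ℝ} (hX : ∀ i, Smooth (X i)) (ha : 0 < a)
    (h : ∀ i, Bo (n - 1 + a) fun x => X i x - c * x i * ‖x‖ ^ (-n : ℝ)) :
    Tendsto (fun r => ∫ x, ∑ i, pd i (cut r) x * X i x) atTop (𝓝 (-(c * omega n))) := by
  obtain ⟨A, hA, h1⟩ := fderiv_cut n
  obtain ⟨C, R, C0, h⟩ : ∃ C R, 0 ≤ C ∧ ∀ x : E n, R < ‖x‖ → ∀ i,
      |X i x - c * x i * ‖x‖ ^ (-n : ℝ)| ≤ C * ‖x‖ ^ (-(n - 1 + a)) := by
    obtain ⟨C, R, k⟩ := bo_iff.2 (Bo.sum (F := fun i x => |X i x - c * x i * ‖x‖ ^ (-n : ℝ)|)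
      fun i => (h i).norm_left)
    exact ⟨|C|, R, abs_nonneg C, fun x hx i => ((Finset.single_le_sum
      (f := fun i => |X i x - c * x i * ‖x‖ ^ (-n : ℝ)|) (fun _ _ => abs_nonneg _)
      (Finset.mem_univ i)).trans ((le_abs_self _).trans (k x hx))).trans
        (mul_le_mul_of_nonneg_right (le_abs_self C) (by unfold len; positivity))⟩
  have n1 : (1 : ℝ) ≤ n := by exact_mod_cast hn
  have t : Tendsto (fun r : ℝ => A * C * omega n * 3 ^ n * r ^ (-a)) atTop (𝓝 0) := by
    simpa using (tendsto_rpow_neg_atTop ha).const_mul (A * C * omega n * 3 ^ n)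
  refine tendsto_sub_nhds_zero_iff.1 (squeeze_zero_norm' ?_ t)
  filter_upwards [eventually_gt_atTop R, eventually_gt_atTop 0] with r hr h0
  set Y : Fin n → E n → ℝ := fun i x => X i x - c * x i * ‖x‖ ^ (-n : ℝ)
  have h2 : ∀ x : E n, |∑ i, pd i (cut r) x * Y i x| ≤ n * (A / r * (C * r ^ (-(n - 1 + a)))) := by
    intro x
    rcases lt_or_ge ‖x‖ r with hx | hx
    · simp only [pd_cut_in hx, zero_mul, Finset.sum_const_zero, abs_zero]
      positivity
    refine (Finset.abs_sum_le_sum_abs _ _).trans ((Finset.sum_le_sum fun i _ => ?_).trans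
      (le_of_eq (by rw [Finset.sum_const, Finset.card_univ, Fintype.card_fin, nsmul_eq_mul])))
    rw [abs_mul]
    exact mul_le_mul ((abs_pd_le ((sm_cut r).diff x) i).trans (h1 r h0 x))
      ((h x (hr.trans_le hx) i).trans (mul_le_mul_of_nonneg_left
        (Real.rpow_le_rpow_of_nonpos h0 hx (by linarith)) C0)) (abs_nonneg _) (by positivity)
  have h3 : ∀ x : E n, 2 * r < ‖x‖ → ∑ i, pd i (cut r) x * Y i x = 0 := fun x hx => by
    simp only [pd_cut_out h0 hx, zero_mul, Finset.sum_const_zero]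
  have h4 := integrable_of_bd (continuous_const (y := (1 : ℝ)))
    (h := fun x => ∑ i, pd i (cut r) x * Y i x) (Finset.measurable_sum _ fun i _ =>
      (measurable_pd (sm_cut r).cont i).mul ((hX i).cont.measurable.sub
        (((contDiff_coord (m := 0) i).continuous.measurable.const_mul c).mul
          (continuous_norm.measurable.pow_const _)))) h2 h3
  simp only [one_mul] at h4
  have h5 := integral_sub (integrable_finsetSum _ fun i (_ : i ∈ Finset.univ) => by
    simpa only [mul_comm] using (lip_cut h0).integrable_pd (fun _ hy => cut_zero h0 hy)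
      (hX i).cont i : Integrable fun x => ∑ i, pd i (cut r) x * X i x) h4
  simp only [Y, ← Finset.sum_sub_distrib, ← mul_sub, sub_sub_cancel] at h5
  rw [AsyF.model hn h0] at h5
  rw [h5, sub_sub_cancel, ← setIntegral_eq_integral_of_forall_compl_eq_zero (s := ball 0 (3 * r))
    fun x hx => h3 x (by linarith [not_lt.1 (mem_ball_zero_iff.not.1 hx)])]
  refine (norm_setIntegral_le_of_norm_le_const measure_ball_lt_top fun x _ => h2 x).trans_eq ?_
  rw [measureReal_def, real_ball hn _ (by positivity), neg_add, Real.rpow_add h0, neg_sub,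
    Real.rpow_sub h0, Real.rpow_natCast, Real.rpow_one, mul_pow]
  field_simp

end Vale.Agent.P366EN
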