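import Vale.Agent.P366K.Cv
import Vale.Agent.P366RY.Id
import Vale.Agent.P366NW.Gt1
import Vale.Agent.P366Z.Int
import Mathlib.Analysis.Distribution.AEEqOfIntegralContDiff

/-!
# P366EN: the adjoint equations
-/

open MeasureTheory Filter Topology Set Matrix
open scoped ContDiff
open Vale.Agent.P366.Stmt Vale.Agent.P366XR Vale.Agent.P366K.C
open Vale.Agent.P366Z hiding Wt dd
open Vale.Agent.P366Y.C (rc Sy)

noncomputable section

namespace Vale.Agent.P366EN

variable {n : ℕ} {g K h k T : Field n} {N : E n → ℝ} {X Y : Vf n} {V B : Set (E n)} {x : E n}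

/-! ### algebra -/

/-- the coefficient of `k` -/
def t2 (G P C : Mx n) (N : ℝ) : Mx n := -(N • P) - G * C + trace C • G

/-- twice the coefficient of `h` -/
def t1 (G U K P R H C D : Mx n) (N τ : ℝ) (X J : Fin n → ℝ) : Mx n :=
  H - trace (U * H) • G - N • R - (2 * N * τ) • K + (2 * N) • (K * U * K) - (2 * trace C) • K +
    trace C • P + (2 * τ) • (G * C) + (2 : ℝ) • (P * C) - trace (U * (P * C)) • G - (X ⬝ᵥ J) • G + D -
    vecMulVec J (G *ᵥ X)

theorem alg (hn : 2 ≤ n) {G U K R H C D : Mx n} {N τ t : ℝ} {X J : Fin n → ℝ} (ug : U * G = 1)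
    (sG : Gᵀ = G) (sU : Uᵀ = U) (sK : Kᵀ = K) (sR : Rᵀ = R) (sH : Hᵀ = H) (sD : Dᵀ = D)
    (eτ : τ = trace (U * K)) (et : t = trace (U * D))
    (h2 : t2 G (K - τ • G) C N + (t2 G (K - τ • G) C N)ᵀ = 0)
    (h1 : t1 G U K (K - τ • G) R H C (D - t • G) N τ X J +
      (t1 G U K (K - τ • G) R H C (D - t • G) N τ X J)ᵀ = 0)
    (du : N * ((trace (U * R) + τ ^ 2 - trace (U * (K * (U * K)))) / 2) + X ⬝ᵥ J = 0) :
    G * C + (G * C)ᵀ = (-2 * N) • K ∧
      H + (D + Cᵀ * K + K * C) - N • (R + τ • K - (2 : ℝ) • (K * (U * K))) =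
        (1 / 2 : ℝ) • (vecMulVec (G *ᵥ X) J + vecMulVec J (G *ᵥ X)) := by
  have n1 : (n - 1 : ℝ) ≠ 0 := sub_ne_zero.2 (by exact_mod_cast (by omega : n ≠ 1))
  have gu : G * U = 1 := mul_eq_one_comm.1 ug
  have tt : ∀ A : Mx n, trace (U * Aᵀ) = trace (U * A) := fun A => by
    rw [← trace_transpose, transpose_mul, transpose_transpose, sU, trace_mul_comm]
  have tC : trace (U * (G * C)) = trace C := by rw [← Matrix.mul_assoc, ug, Matrix.one_mul]
  have e2 : G * C + (G * C)ᵀ = (-2 * N) • K + (2 * N * τ + 2 * trace C) • G := by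
    simp only [t2, transpose_add, transpose_sub, transpose_neg, transpose_smul, sG, sK] at h2
    linear_combination (norm := module) -h2
  have eC : trace C = -(N * τ) := by
    have := congrArg (fun A => trace (U * A)) e2
    simp only [Matrix.mul_add, Matrix.mul_smul, trace_add, trace_smul, tt, tC, ug, trace_one,
      Fintype.card_fin, smul_eq_mul, ← eτ] at this
    exact mul_left_cancel₀ n1 (by linarith)
  rw [eC, show 2 * N * τ + 2 * -(N * τ) = 0 by ring, zero_smul, add_zero] at e2
  refine ⟨e2, ?_⟩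
  have tK : trace (U * (K * C)) = -N * trace (U * (K * (U * K))) := by
    have a : trace (U * (K * (U * (G * C)))) = trace (U * (K * C)) := by
      rw [← Matrix.mul_assoc U G, ug, Matrix.one_mul]
    have b : trace (U * (K * (U * (G * C)ᵀ))) = trace (U * (K * C)) := by
      rw [← tt, transpose_mul, transpose_mul, transpose_transpose, sU, sK, Matrix.mul_assoc G,
        Matrix.mul_assoc G, ← Matrix.mul_assoc, ug, Matrix.one_mul, trace_mul_cycle,
        trace_mul_cycle, Matrix.mul_assoc]
    have := congrArg (fun A => trace (U * (K * (U * A)))) e2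
    simp only [Matrix.mul_add, Matrix.mul_smul, trace_add, trace_smul, a, b, smul_eq_mul] at this
    linarith
  set c := -trace (U * H) + N * trace (U * (K * (U * K))) - X ⬝ᵥ J - t with hc
  have e1 : H + (D + Cᵀ * K + K * C) - N • (R + τ • K - (2 : ℝ) • (K * (U * K))) =
      (1 / 2 : ℝ) • (vecMulVec (G *ᵥ X) J + vecMulVec J (G *ᵥ X)) - c • G := by
    simp only [t1, transpose_add, transpose_sub, transpose_smul, transpose_mul, sG, sK, sU, sR, sH,
      sD, transpose_vecMulVec, Matrix.mul_sub, Matrix.sub_mul, Matrix.mul_smul, Matrix.smul_mul,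
      trace_sub, trace_smul, tK, tC, eC, smul_eq_mul, Matrix.mul_assoc] at h1
    rw [hc]
    linear_combination (norm := module) (1 / 2 : ℝ) • h1
  have tv : trace (U * vecMulVec (G *ᵥ X) J) = X ⬝ᵥ J := by
    rw [mul_vecMulVec, mulVec_mulVec, ug, one_mulVec, trace_vecMulVec]
  have tv' : trace (U * vecMulVec J (G *ᵥ X)) = X ⬝ᵥ J := by rw [← tt, transpose_vecMulVec, tv]
  have tK' : trace (U * (Cᵀ * K)) = trace (U * (K * C)) := by
    rw [← tt, transpose_mul, transpose_transpose, sK]
  have := congrArg (fun A => trace (U * A)) e1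
  simp only [Matrix.mul_add, Matrix.mul_sub, Matrix.mul_smul, trace_add, trace_sub, trace_smul, tv,
    tv', tK', tK, ug, trace_one, Fintype.card_fin, smul_eq_mul, ← eτ, ← et] at this
  rw [e1, mul_left_cancel₀ n1 (show (n - 1 : ℝ) * c = (n - 1) * 0 by linarith), zero_smul, sub_zero]

/-! ### analysis -/

section
variable {α : Type} [TopologicalSpace α] {G U K P R H C D : α → Mx n} {N τ : α → ℝ}
  {X J : α → Fin n → ℝ}

theorem ct2 (_ : Continuous G) (_ : Continuous P) (_ : Continuous C) (_ : Continuous N) :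
    Continuous fun y => t2 (G y) (P y) (C y) (N y) := by
  unfold t2
  fun_prop

theorem ct1 (_ : Continuous G) (_ : Continuous U) (_ : Continuous K) (_ : Continuous P)
    (_ : Continuous R) (_ : Continuous H) (_ : Continuous C) (_ : Continuous D) (_ : Continuous N)
    (_ : Continuous τ) (_ : Continuous X) (_ : Continuous J) : Continuous fun y =>
      t1 (G y) (U y) (K y) (P y) (R y) (H y) (C y) (D y) (N y) (τ y) (X y) (J y) := by
  unfold t1
  fun_prop

end

theorem dv0 (e : ∀ᶠ z in 𝓝 x, ∀ i, Y i z = 0) : dv g Y x = 0 := by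
  rw [dv_congr (Y := fun _ _ => 0) fun i => e.mono fun _ r => r i]
  simp [dv, pd_const]

theorem dvT0 (e : ∀ᶠ z in 𝓝 x, T z = 0) (j : Fin n) : dvT g T j x = 0 := by
  have : ∀ i k, pd k (fun y => T y i j) x = 0 := fun i k =>
    (pd_congr (h := fun _ => 0) (e.mono fun _ r => by simp [r]) k).trans (pd_const 0 k x)
  simp [dvT, this, e.self_of_nhds]

theorem out (hB : IsCompact B) (hx : x ∉ B) : ∀ᶠ z in 𝓝 x, z ∉ B :=
  hB.isClosed.isOpen_compl.eventually_mem hx

theorem int_dv (hg : Met g) (hB : IsCompact B) (sub : B ⊆ V)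
    (hY : ∀ x ∈ V, ∀ i, ContDiffAt ℝ ∞ (Y i) x) (h0 : ∀ x ∉ B, ∀ i, Y i x = 0) :
    Integrable (fun x => dv g Y x * dens g x) ∧ ∫ x, dv g Y x * dens g x = 0 := by
  have s : ∀ i, Smooth fun y => dens g y * Y i y := fun i => ContDiff.mul hg.sm_dens
    (contDiff_iff_contDiffAt.2 fun x => (em (x ∈ B)).elim (fun r => hY x (sub r) i) fun r =>
      contDiffAt_const.congr_of_eventuallyEq ((out hB r).mono fun z q => h0 z q i))
  have c : ∀ i, HasCompactSupport fun y => dens g y * Y i y := fun i =>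
    .intro hB fun x r => by rw [h0 x r, mul_zero]
  have l := fun i => lip_of_supp (ContDiff.of_le (s i) (by norm_cast)) (c i)
  have I : ∀ i, Integrable (pd i fun y => dens g y * Y i y) := fun i => by
    obtain ⟨R, -, e⟩ := out_of_supp (c i)
    simpa using (l i).integrable_pd e (continuous_const (y := (1 : ℝ))) i
  simp only [dv, div_mul_cancel₀ _ (hg.dens_pos _).ne']
  exact ⟨integrable_finsetSum _ fun i _ => I i, by
    rw [integral_finsetSum _ fun i _ => I i]
    exact Finset.sum_eq_zero fun i _ => integral_pd (l i) (c i) i⟩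

/-- the pairing -/
def bf (g h : Field n) (T : Mx n) (x : E n) : ℝ := trace ((mat g x)⁻¹ * mat h x * (mat g x)⁻¹ * T)

theorem fund (hg : Met g) (hV : IsOpen V) {T : E n → Mx n} (hT : Continuous fun y : V => T y)
    (h : ∀ H, Sy H → (∃ B ⊆ V, IsCompact B ∧ ∀ x ∉ B, H x = 0) →
      ∫ y, bf g H (T y) y * dens g y = 0) (hx : x ∈ V) : T x + (T x)ᵀ = 0 := by
  ext i j
  have c : ContinuousOn (fun y => (T y i j + T y j i) * dens g y) V :=
    (continuousOn_iff_continuous_domRestrict.2 ((hT.matrix_elem i j).add (hT.matrix_elem j i))).mul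
      hg.sm_dens.cont.continuousOn
  have a := hV.ae_eq_zero_of_integral_contDiff_smul_eq_zero (μ := volume)
    (c.locallyIntegrableOn hV.measurableSet) fun φ h1 h2 h3 => by
      rw [← h (fun y a b => φ y * (mat g y * (single j i 1 + single i j 1) * mat g y : Mx n) a b)
        ⟨fun a b => by
          simp only [mul_apply]
          exact ContDiff.mul h1 (ContDiff.sum fun l _ => ContDiff.mul
            (ContDiff.sum fun m _ => ContDiff.mul (hg.sm a m) contDiff_const) (hg.sm l b)),
        fun y a b => ?_⟩ ⟨_, h3, h2, fun y r => by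
          funext a b
          exact mul_eq_zero_of_left (image_eq_zero_of_notMem_tsupport r) _⟩]
      · refine integral_congr_ae (.of_forall fun y => ?_)
        change _ = trace (_ * (φ y • (mat g y * _ * mat g y)) * _ * _) * _
        simp only [Matrix.mul_smul, Matrix.smul_mul, ← Matrix.mul_assoc, P366XR.inv_mul hg,
          Matrix.mul_assoc _ (mat g y), P366XR.mul_inv hg, Matrix.mul_one,
          Matrix.add_mul, trace_smul, trace_add, trace_single_mul, smul_eq_mul, one_mul, mul_assoc]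
      · refine congrArg (φ y * ·) ?_
        rw [← transpose_apply (mat g y * _ * mat g y) a b, transpose_mul, transpose_mul, mat_sy hg,
          transpose_add, transpose_single, transpose_single, add_comm, Matrix.mul_assoc]
  exact (mul_eq_zero.1 (Measure.eqOn_open_of_ae_eq ((ae_restrict_iff' hV.measurableSet).2 a) hV c
    continuousOn_const hx)).resolve_right (hg.dens_pos x).ne'

theorem sm_Wt (hg : Met g) (hK : Sm K) (hh : Sm h) (hk : Sm k) : Sm (Wt g K h k) := fun i j =>
  ContDiff.add (ContDiff.sub (ContDiff.sub (ContDiff.add (sm_momT hg hk i j) (ContDiff.mul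
    (ContDiff.sub (sm_pr hg hK hh) (ContDiff.div_const (sm_pr hg (sm_momT hg hK) hh) 2)) (hg.sm i j)))
    (ContDiff.mul (sm_tr hg hK) (hh i j))) (sm_ml hg hh (sm_momT hg hK) i j))
    (ContDiff.mul (ContDiff.div_const (sm_tr hg hh) 2) (sm_momT hg hK i j))

theorem cd_sh (hg : Met g) (hT : Sm T) (hY : ∀ i, ContDiffAt ℝ ∞ (Y i) x) (i : Fin n) :
    ContDiffAt ℝ ∞ (hi g (lo T Y) i) x :=
  ContDiffAt.sum (s := Finset.univ) fun j _ => (ContDiff.contDiffAt (hg.sm_up i j)).mul
    (ContDiffAt.sum (s := Finset.univ) fun l _ => (ContDiff.contDiffAt (hT j l)).mul (hY l))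

/-- the coefficients at a point -/
def T1 (g K : Field n) (N : E n → ℝ) (X : Vf n) (x : E n) : Mx n :=
  t1 (mat g x) (mat g x)⁻¹ (mat K x) (mat (momT g K) x) (mat (rc g) x) (mat (hess g N) x) (Dm g X x)
    (cX g (momT g K) (ev X x) x) (N x) (tr g K x) (ev X x) (ev (mom g K) x)

def T2 (g K : Field n) (N : E n → ℝ) (X : Vf n) (x : E n) : Mx n :=
  t2 (mat g x) (mat (momT g K) x) (Dm g X x) (N x)

theorem mat_momT (g T : Field n) (x : E n) : mat (momT g T) x = mat T x - tr g T x • mat g x := rfl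

theorem point (hg : Met g) (hK : Sy K) (hh : Sy h) (hk : Sy k) (hN : ContDiffAt ℝ 2 N x)
    (hX : Df X x) : N x * Lmu g K h k x + ∑ j, X j x * Lmo g K h k j x =
      (dv g (fun i y => N y * rs g (mom g h) i y) x - dv g (hi g (lo (momT g h) (gr g N))) x) / 2 +
        dv g (hi g (lo (Wt g K h k) X)) x +
          (bf g h (T1 g K N X x) x / 2 + bf g k (T2 g K N X x) x) := by
  have p1 : ∀ {h : Field n}, Sy h → ∀ A, pr g A h x = bf g h (mat A x) x := fun hh A => by
    rw [pr_tr hg A (hh.sy x), bf, Matrix.mul_assoc, trace_mul_comm, ← Matrix.mul_assoc]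
  have p2 : ∀ (h : Field n) A, bf g h (mat g x * A) x = trace ((mat g x)⁻¹ * (mat h x * A)) :=
    fun h A => by
      rw [bf, Matrix.mul_assoc, ← Matrix.mul_assoc _ (mat g x), P366XR.inv_mul hg, Matrix.one_mul,
        Matrix.mul_assoc]
  have p3 : ∀ h : Field n, bf g h (mat g x) x = tr g h x := fun h => by
    simpa only [Matrix.mul_one, ← tr_eq hg] using p2 h 1
  have p4 : ∀ A, trace ((mat g x)⁻¹ * (mat g x * A)) = trace A := fun A => by
    rw [← Matrix.mul_assoc, P366XR.inv_mul hg, Matrix.one_mul]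
  have p5 : ∑ j, X j x * pr g h (fun y a b => cT g (momT g K) j a b y) x =
      bf g h (cX g (momT g K) (ev X x) x) x := by
    simp only [pr_comm hg h, p1 hh, bf, cX, Matrix.mul_sum, Matrix.mul_smul, trace_sum, trace_smul]
    rfl
  have p6 : ∑ j, X j x * ∑ a, h x j a * rs g (mom g K) a x =
      bf g h (vecMulVec (ev (mom g K) x) (mat g x *ᵥ ev X x)) x := by
    rw [bf, mul_vecMulVec, trace_vecMulVec, dotProduct_comm, ← mulVec_mulVec, ← mulVec_mulVec,
      dotProduct_mulVec, ← mulVec_transpose, inv_sy hg, mulVec_mulVec, P366XR.inv_mul hg, one_mulVec]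
    rfl
  have p7 : ∑ i, pd i N x * rs g (mom g h) i x = ev (dvT g (momT g h)) x ⬝ᵥ ev (gr g N) x := by
    simp only [rs, gr, ev, dotProduct, Finset.mul_sum]
    rw [Finset.sum_comm]
    exact Finset.sum_congr rfl fun i _ => Finset.sum_congr rfl fun j _ => by
      rw [hg.up_sy j i]; change _ = mom g h i x * _; ring
  have w : mat (Wt g K h k) x = mat (momT g k) x +
      (pr g K h x - pr g (momT g K) h x / 2) • mat g x - tr g K x • mat h x -
      mat (ml g h (momT g K)) x + (tr g h x / 2) • mat (momT g K) x := rfl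
  have l : ∑ j, X j x * Lmo g K h k j x = ev (dvT g (Wt g K h k)) x ⬝ᵥ ev X x -
      tr g h x / 2 * ev X x ⬝ᵥ ev (mom g K) x +
      (∑ j, X j x * pr g h (fun y a b => cT g (momT g K) j a b y) x) / 2 -
      (∑ j, X j x * ∑ a, h x j a * rs g (mom g K) a x) / 2 := by
    rw [dotProduct, dotProduct, Finset.mul_sum, Finset.sum_div, Finset.sum_div,
      ← Finset.sum_sub_distrib, ← Finset.sum_add_distrib, ← Finset.sum_sub_distrib]
    exact Finset.sum_congr rfl fun j _ => by simp only [Lmo, Lmom, ev]; ring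
  have q : ∀ (h : Field n) A, trace ((mat g x)⁻¹ * (mat h x * ((mat g x)⁻¹ * A))) = bf g h A x :=
    fun h A => by simp only [bf, Matrix.mul_assoc]
  have b1 : ∀ (h : Field n) A A', bf g h (A + A') x = bf g h A x + bf g h A' x := fun h A A' => by
    simp only [bf, Matrix.mul_add, trace_add]
  have b2 : ∀ (h : Field n) A A', bf g h (A - A') x = bf g h A x - bf g h A' x := fun h A A' => by
    simp only [bf, Matrix.mul_sub, trace_sub]
  have b3 : ∀ (h : Field n) (c : ℝ) A, bf g h (c • A) x = c * bf g h A x := fun h c A => by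
    simp only [bf, Matrix.mul_smul, trace_smul, smul_eq_mul]
  have b4 : ∀ (h : Field n) A, bf g h (-A) x = -bf g h A x := fun h A => by
    simp only [bf, Matrix.mul_neg, trace_neg]
  rw [hg.dv_smul (diff2 hN) fun i => (sm_rs hg (sm_mom hg hh.sm) i).diff x, p7,
    dv_sh hg (sm_momT hg hh.sm) (hg.diff_gr hN), dv_sh hg (sm_Wt hg hK.sm hh.sm hk.sm) hX,
    Dm_gr hg hN, l, p5, p6, w, mat_momT g h, mat_momT g k, Lmu]
  simp only [p1 hh, p1 hk, mat_ml, T1, T2, t1, t2, b1, b2, b3, b4, p2, p3, p4, q, Matrix.mul_add,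
    Matrix.add_mul, Matrix.mul_sub, Matrix.sub_mul, Matrix.smul_mul, Matrix.mul_smul, trace_add,
    trace_sub, trace_smul, smul_eq_mul, Matrix.mul_assoc]
  ring

theorem weak (hg : Met g) (hK : Sy K) (hh : Sy h) (hk : Sy k) (hB : IsCompact B) (sub : B ⊆ V)
    (hN : ∀ x ∈ V, ContDiffAt ℝ ∞ N x) (hX : ∀ x ∈ V, ∀ i, ContDiffAt ℝ ∞ (X i) x)
    (h0 : ∀ x ∉ B, h x = 0 ∧ k x = 0)
    (I : ∫ x, (N x * Lmu g K h k x + ∑ j, X j x * Lmo g K h k j x) * dens g x = 0) :
    ∫ x, (bf g h (T1 g K N X x) x / 2 + bf g k (T2 g K N X x) x) * dens g x = 0 := by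
  have z1 : ∀ x ∉ B, momT g h x = 0 := fun x r => by
    funext i j
    simp [momT, tr, (h0 x r).1]
  have z2 : ∀ x ∉ B, Wt g K h k x = 0 := fun x r => by
    funext i j
    simp [Wt, momT, tr, pr, ml, h0 x r]
  have z3 : ∀ x ∉ B, ∀ i, rs g (mom g h) i x = 0 := fun x r i =>
    Finset.sum_eq_zero fun j _ => mul_eq_zero_of_right _ (dvT0 ((out hB r).mono z1) j)
  have y1 : ∀ x ∉ B, ∀ i, N x * rs g (mom g h) i x = 0 := fun x r i => by rw [z3 x r, mul_zero]
  have y2 : ∀ x ∉ B, ∀ i, hi g (lo (momT g h) (gr g N)) i x = 0 := fun x r i => by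
    simp [hi, ev_lo, show mat (momT g h) x = 0 from z1 x r]
  have y3 : ∀ x ∉ B, ∀ i, hi g (lo (Wt g K h k) X) i x = 0 := fun x r i => by
    simp [hi, ev_lo, show mat (Wt g K h k) x = 0 from z2 x r]
  obtain ⟨i1, j1⟩ := int_dv hg hB sub (Y := fun i y => N y * rs g (mom g h) i y)
    (fun x r i => (hN x r).mul (ContDiff.contDiffAt (sm_rs hg (sm_mom hg hh.sm) i))) y1
  obtain ⟨i2, j2⟩ := int_dv hg hB sub (fun x r => cd_sh hg (sm_momT hg hh.sm) fun i =>
    hg.contDiffAt_gr (hN x r) (by norm_num) le_rfl i) y2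
  obtain ⟨i3, j3⟩ := int_dv hg hB sub
    (fun x r => cd_sh hg (sm_Wt hg hK.sm hh.sm hk.sm) (hX x r)) y3
  by_cases i4 : Integrable fun x =>
    (bf g h (T1 g K N X x) x / 2 + bf g k (T2 g K N X x) x) * dens g x
  swap
  · exact integral_undef i4
  have := integral_add (((i1.sub i2).div_const 2).add i3) i4
  rw [integral_add' ((i1.sub i2).div_const 2) i3, integral_div, integral_sub' i1 i2, j1, j2, j3] at this
  refine Eq.trans (by simpa using this.symm) (Eq.trans (integral_congr_ae (.of_forall fun x => ?_)) I)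
  by_cases r : x ∈ V
  · simp only [point hg hK hh hk ((hN x r).of_le (by norm_cast))
      fun i => (hX x r i).differentiableAt (by simp)]
    ring
  · have r := fun q => r (sub q)
    simp [Lmu, Lmo, Lmom, bf, pr, tr, h0 x r, show mat h x = 0 from (h0 x r).1,
      show mat k x = 0 from (h0 x r).2, dv0 ((out hB r).mono y1), dv0 ((out hB r).mono y2),
      dv0 ((out hB r).mono y3), dv0 ((out hB r).mono z3), dvT0 ((out hB r).mono z2)]

theorem adj : ADJ := by
  intro n g K N X V hn hg hK hV hN hX du I x hx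
  have hN := fun x r => hN.contDiffAt (hV.mem_nhds (x := x) r)
  have hX := fun x r i => (hX i).contDiffAt (hV.mem_nhds (x := x) r)
  have s0 : Sy (0 : Field n) := ⟨fun _ _ => contDiff_const, fun _ _ _ => rfl⟩
  have b0 : ∀ A y, bf g 0 A y = 0 := fun A y => by simp [bf, show mat (0 : Field n) y = 0 from rfl]
  have cv : ∀ {f : E n → ℝ}, (∀ x ∈ V, ContinuousAt f x) → Continuous fun y : V => f y := fun h =>
    continuousOn_iff_continuous_domRestrict.1 fun x r => (h x r).continuousWithinAt
  have cm : ∀ {T : Field n}, Sm T → Continuous fun y : V => mat T y := fun h =>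
    continuous_matrix fun i j => cv fun _ _ => (h i j).cont.continuousAt
  have c1 := cm hg.sm
  have c2 : Continuous fun y : V => (mat g y)⁻¹ :=
    continuous_matrix fun i j => cv fun _ _ => (hg.sm_up i j).cont.continuousAt
  have c3 := cm hK.sm
  have c4 := cm (sm_momT hg hK.sm)
  have c5 := cm (P366NW.sm_rc hg)
  have dN := fun x r => contDiffAt_pd (k := ∞) (hN x r) (by norm_num)
  have c6 : Continuous fun y : V => mat (hess g N) y := continuous_matrix fun i j => cv fun x r =>
    (contDiffAt_pd (k := 0) (dN x r j) (by norm_num) i).continuousAt.sub (tendsto_finsetSum _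
      fun l _ => (hg.sm_chr l i j).cont.continuousAt.mul (dN x r l).continuousAt)
  have c7 : Continuous fun y : V => Dm g X y := continuous_matrix fun i j => cv fun x r =>
    (contDiffAt_pd (k := 0) (hX x r i) (by norm_num) j).continuousAt.add (tendsto_finsetSum _
      fun l _ => (hg.sm_chr i j l).cont.continuousAt.mul (hX x r l).continuousAt)
  have c8 : Continuous fun y : V => ev X y :=
    continuous_pi fun i => cv fun x r => (hX x r i).continuousAt
  have c9 : Continuous fun y : V => cX g (momT g K) (ev X y) y := continuous_finsetSum _ fun l _ =>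
    (continuous_apply l |>.comp c8).smul (continuous_matrix fun i j => cv fun _ _ =>
      (sm_cT hg (sm_momT hg hK.sm) l i j).cont.continuousAt)
  have d1 := cv fun x r => (hN x r).continuousAt
  have d2 := cv fun x _ => (sm_tr hg hK.sm).cont.continuousAt
  have d3 : Continuous fun y : V => ev (mom g K) y :=
    continuous_pi fun i => cv fun _ _ => (sm_mom hg hK.sm i).cont.continuousAt
  have h1 := fund hg hV (T := T1 g K N X) (ct1 c1 c2 c3 c4 c5 c6 c7 c9 d1 d2 c8 d3)
    (fun H s ⟨B, q1, q2, q3⟩ => by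
    have := weak hg hK s s0 q2 q1 hN hX (fun y r => ⟨q3 y r, rfl⟩)
      (I H 0 s s0 ⟨B, q1, q2, fun y r => ⟨q3 y r, rfl⟩⟩)
    simpa only [b0, add_zero, div_mul_eq_mul_div, integral_div, div_eq_zero_iff, OfNat.ofNat_ne_zero,
      or_false] using this) hx
  have h2 := fund hg hV (T := T2 g K N X) (ct2 c1 c4 c7 d1) (fun H s ⟨B, q1, q2, q3⟩ => by
    have := weak hg hK s0 s q2 q1 hN hX (fun y r => ⟨rfl, q3 y r⟩)
      (I 0 H s0 s ⟨B, q1, q2, fun y r => ⟨rfl, q3 y r⟩⟩)
    simpa only [b0, zero_div, zero_add] using this) hx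
  have e : cX g (momT g K) (ev X x) x = cX g K (ev X x) x - D X (tr g K) x • mat g x := by
    ext i j
    have : ∀ l, cT g (momT g K) l i j x = cT g K l i j x - pd l (tr g K) x * g x i j := fun l => by
      rw [show momT g K = fun y i j => K y i j - (fun y i j => tr g K y * g y i j) y i j from rfl,
        cT_sub g hK.sm fun i j => ContDiff.mul (sm_tr hg hK.sm) (hg.sm i j),
        cT_smul g ((sm_tr hg hK.sm).diff x) hg.sm, cT_g hg, mul_zero, add_zero]
    simp only [cX, cM, D, P366XR.dd, dotProduct, Matrix.sub_apply, Matrix.sum_apply,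
      Matrix.smul_apply, of_apply, smul_eq_mul, this, mul_sub, Finset.sum_sub_distrib,
      Finset.sum_mul, mul_assoc]
    rfl
  rw [T1, e, mat_momT] at h1
  obtain ⟨r1, r2⟩ := alg hn (K := mat K x) (H := mat (hess g N) x) (P366XR.inv_mul hg x)
    (mat_sy hg x) (inv_sy hg x)
    (Matrix.ext fun i j => hK.sy x j i) (rc_sy hg x)
    (Matrix.ext fun i j => hg.hess_sy ((hN x hx).of_le (by norm_cast)) j i)
    (Matrix.ext fun i j => by simp only [cX, cM, transpose_apply, Matrix.sum_apply,
      Matrix.smul_apply, of_apply, cT_sy g hK.sy _ j i]) (tr_eq hg K x) (D_tr hg hK.sm X x) h2 h1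
    (by rw [← P366RY.scal_eq hg, ← P366RY.normSq_eq hg (hK.sy x)]; exact du x hx)
  refine ⟨fun i j => ?_, fun i j => ?_⟩
  · rw [Finset.sum_add_distrib, add_comm]
    exact congrFun (congrFun r1 i) j
  · refine (congrFun (congrFun ((P366RY.EE_eq g K N X x).trans r2) i) j).trans ?_
    rw [Matrix.smul_apply, smul_eq_mul, one_div, ← div_eq_inv_mul, Matrix.add_apply,
      vecMulVec_apply, vecMulVec_apply, mul_comm (ev (mom g K) x i)]
    rfl

end Vale.Agent.P366EN
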