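import Vale.Agent.P366EN.Bo
import Vale.Agent.P366OC.Oc

/-!
# P366EN: the expansion of a harmonic function in an asymptotically Euclidean end
-/

open MeasureTheory Filter Topology Set Asymptotics Metric
open scoped ContDiff Matrix
open Vale.Agent.P366.Stmt Vale.Agent.P366Z
open Vale.Agent.P366RB (O2 OC NEW END ex)
open Vale.Agent.P366OC (oc o_add o_mul o_comp)

noncomputable section

namespace Vale.Agent.P366EN

variable {n : ℕ} {q a : ℝ} {f V : E n → ℝ} {A B H : Matrix (Fin n) (Fin n) ℝ}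
  {M : E n → Matrix (Fin n) (Fin n) ℝ}

theorem o_sum (hq : 0 < q) {ι : Type} (s : Finset ι) {F : ι → E n → ℝ} {c : ι → ℝ}
    (h : ∀ i, O2 q (c i) (F i)) : O2 q (∑ i ∈ s, c i) fun y => ∑ i ∈ s, F i y := by
  classical
  induction s using Finset.induction_on with
  | empty => simpa only [Finset.sum_empty] using (oc n q hq).1 0
  | insert a s ha ih => simpa only [Finset.sum_insert ha] using o_add (h a) ih

theorem o_prod (hq : 0 < q) {ι : Type} (s : Finset ι) {F : ι → E n → ℝ} {c : ι → ℝ}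
    (h : ∀ i, O2 q (c i) (F i)) : O2 q (∏ i ∈ s, c i) fun y => ∏ i ∈ s, F i y := by
  classical
  induction s using Finset.induction_on with
  | empty => simpa only [Finset.prod_empty] using (oc n q hq).1 1
  | insert a s ha ih => simpa only [Finset.prod_insert ha] using o_mul hq (h a) ih

theorem o_det (hq : 0 < q) (h : ∀ i j, O2 q (H i j) fun y => M y i j) :
    O2 q H.det fun y => (M y).det := by
  simp only [Matrix.det_apply']
  exact o_sum hq _ fun σ => o_mul hq ((oc n q hq).1 _) (o_prod hq _ fun i => h _ _)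

theorem o_inv (hq : 0 < q) (d : H.det ≠ 0) (h : ∀ i j, O2 q (H i j) fun y => M y i j)
    (i j : Fin n) : O2 q (H⁻¹ i j) fun y => (M y)⁻¹ i j := by
  simp only [Matrix.inv_def, Ring.inverse_eq_inv', Matrix.smul_apply, smul_eq_mul,
    Matrix.adjugate_apply]
  refine o_mul hq (o_comp hq (o_det hq h) (φ := fun t => t⁻¹)
    ((eventually_ne_nhds d).mono fun t ht => contDiffAt_inv ℝ ht)) (o_det hq fun k l => ?_)
  simp only [Matrix.updateRow_apply]
  split_ifs
  exacts [(oc n q hq).1 _, h _ _]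

theorem o_sm (h : O2 q a f) : ∀ᶠ y in cocompact (E n), ContDiffAt ℝ ∞ f y := ev_iff.2 h.sm

theorem two {x : E n} (h : ContDiffAt ℝ ∞ f x) : ContDiffAt ℝ 2 f x := h.of_le (by norm_cast)

/-- the equation with the limits of the coefficients -/
theorem bo_lap {c : Fin n → Fin n → E n → ℝ} {D : ℝ} (hD : D ≠ 0)
    (hc : ∀ i j, O2 q (D * H i j) (c i j)) (hV : O2 q 1 V)
    (h : ∀ᶠ y in cocompact (E n), ∑ i, pd i (fun z => ∑ j, c i j z * pd j V z) y = 0) :
    Bo (2 * q + 2) fun y => ∑ i, ∑ j, H i j * pd i (pd j V) y := by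
  refine ((Bo.sum fun i => Bo.sum fun j => ((bo_iff.1 (hc i j).d0).mul (bo_iff.1 (hV.d2 i j))
    (by linarith)).add ((bo_iff.1 ((hc i j).d1 i)).mul (bo_iff.1 (hV.d1 j))
      (by linarith))).cm (-D⁻¹)).congr ?_
  filter_upwards [h, o_sm hV, eventually_all.2 fun i => eventually_all.2 fun j => o_sm (hc i j)]
    with y h v s
  have e : ∀ i, pd i (fun z => ∑ j, c i j z * pd j V z) y =
      ∑ j, (pd i (c i j) y * pd j V y + c i j y * pd i (pd j V) y) := fun i => by
    rw [pd_sum _ fun j _ => (diff2 (two (s i j))).fun_mul (diffAt_pd (two v) j)]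
    exact Finset.sum_congr rfl fun j _ => pd_mul (diff2 (two (s i j))) (diffAt_pd (two v) j) i
  simp only [e] at h
  rw [← sub_eq_zero, neg_mul, sub_neg_eq_add, ← mul_eq_zero_iff_left hD, mul_add,
    mul_inv_cancel_left₀ hD, ← h, Finset.mul_sum, ← Finset.sum_add_distrib]
  refine Finset.sum_congr rfl fun i _ => ?_
  rw [Finset.mul_sum, ← Finset.sum_add_distrib]
  exact Finset.sum_congr rfl fun j _ => by ring

theorem td (h : A * B = 1) : Tendsto (lm A) (cocompact (E n)) (cocompact (E n)) :=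
  (le h).toHomeomorph.isClosedEmbedding.tendsto_cocompact

/-- the gradient in the new coordinates -/
def gp (B : Matrix (Fin n) (Fin n) ℝ) (V : E n → ℝ) (i : Fin n) (x : E n) : ℝ :=
  ∑ j, B j i * pd j V (lm B x)

/-- the expansion in the new coordinates -/
theorem expand (hN : NEW) (hn : 3 ≤ n) (hq : (n : ℝ) / 2 - 1 < q) (h : B * A = 1)
    (hV : O2 q 1 V) (l : Bo (2 * q + 2) fun y => ∑ i, ∑ j, (B * Bᵀ) i j * pd i (pd j V) y) :
    ∃ d β : ℝ, 0 < d ∧ (Bo (n - 2 + d) fun x => (V (lm B x) - 1) - β * ‖x‖ ^ (-(n - 2) : ℝ)) ∧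
      ∀ i, Bo (n - 1 + d) fun x => gp B V i x - -((n - 2) * β) * x i * ‖x‖ ^ (-n : ℝ) := by
  have n3 : (3 : ℝ) ≤ n := by exact_mod_cast hn
  have s := (td h).eventually (o_sm hV)
  obtain ⟨v, hv, e⟩ := ext (f := fun x => V (lm B x) - 1)
    (s.mono fun x k => (k.comp x (lm B).contDiff.contDiffAt).sub contDiffAt_const)
  have e1 : ∀ i, pd i v =ᶠ[cocompact (E n)] gp B V i := fun i => (ev_pd e i).trans
    (s.mono fun x k => (pd_sub_const 1 i).trans (pd_lm (diff2 (two k)) i))
  have e2 : lap (eu n) v =ᶠ[cocompact (E n)]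
      fun x => ∑ i, ∑ j, (B * Bᵀ) i j * pd i (pd j V) (lm B x) := by
    filter_upwards [s, eventually_all.2 fun i => ev_pd (e1 i) i] with x k r
    have k1 := fun j => diffAt_pd (two k) j
    have k2 : ∀ i, pd i (gp B V i) x = ∑ j, B j i * ∑ l, B l i * pd l (pd j V) (lm B x) :=
      fun i => (pd_sum _ (fun j _ => ((k1 j).comp x (lm B).differentiableAt).const_mul _) i).trans
        (Finset.sum_congr rfl fun j _ => (pd_const_mul _ i).trans (congrArg _ (pd_lm (k1 j) i)))
    simp only [lap_eu, r, k2, Matrix.mul_apply, Matrix.transpose_apply, Finset.mul_sum,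
      Finset.sum_mul]
    rw [Finset.sum_comm]
    conv_rhs => rw [Finset.sum_comm]
    refine Finset.sum_congr rfl fun j _ => ?_
    rw [Finset.sum_comm]
    exact Finset.sum_congr rfl fun l _ => Finset.sum_congr rfl fun i _ => by ring
  obtain ⟨β, b1, b2⟩ := hN n v (min (2 * q + 2 - n) (1 / 2)) hn (lt_min (by linarith) (by norm_num))
    ((min_le_right _ _).trans_lt (by norm_num)) hv
    (bo_iff.2 (((l.comp (le h)).mono (by linarith [min_le_left (2 * q + 2 - n) (1 / 2)])).congr e2))
    ((((bo_iff.1 hV.d0).comp (le h)).lim0 (by linarith)).congr' e.symm)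
  refine ⟨_, β, lt_min (by linarith) (by norm_num), (bo_iff.1 b1).congr (e.mono fun x k => ?_),
    fun i => (bo_iff.1 (b2 i)).congr ((e1 i).mono fun x k => ?_)⟩
  · simp only [k, neg_sub]
  · simp only [k, neg_mul, sub_neg_eq_add]

theorem pd_gp (h : B * A = 1) (V : E n → ℝ) (j : Fin n) (x : E n) :
    pd j V (lm B x) = ∑ k, A k j * gp B V k x := by
  simp only [gp, Finset.mul_sum]
  rw [Finset.sum_comm]
  have : ∀ l, ∑ k, A k j * (B l k * pd l V (lm B x)) = (B * A) l j * pd l V (lm B x) := fun l => by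
    rw [Matrix.mul_apply, Finset.sum_mul]
    exact Finset.sum_congr rfl fun k _ => by ring
  simp [this, h, Matrix.one_apply]

/-- the flux in the new coordinates -/
theorem flux_new (hn : 0 < n) (h : A * B = 1) {W : Fin n → E n → ℝ} {κ : ℝ} (ha : 0 < a)
    (s : ∀ i, ∀ᶠ y in cocompact (E n), ContDiffAt ℝ ∞ (W i) y)
    (d : ∀ᶠ y in cocompact (E n), ∑ i, pd i (W i) y = 0)
    (b : ∀ k, Bo (n - 1 + a) fun x =>
      |A.det|⁻¹ * ∑ i, A k i * W i (lm B x) - κ * x k * ‖x‖ ^ (-n : ℝ)) :
    Tendsto (fun r => ∫ y, ∑ i, pd i (cut r) y * W i y) atTop (𝓝 (-(κ * omega n))) := by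
  have h' := mul_eq_one_comm.1 h
  choose U hU e using fun i => ext (s i)
  obtain ⟨R, hR⟩ := ev_iff.1 (d.and ((eventually_all.2 e).and
    (eventually_all.2 fun i => ev_pd (e i) i)))
  refine (flux_lim hn (X := fun k x => |A.det|⁻¹ * ∑ i, A k i * U i (lm B x)) (fun k =>
    contDiff_const.mul (ContDiff.sum fun i _ => contDiff_const.mul
      (ContDiff.comp (hU i) (lm B).contDiff))) ha fun k => (b k).congr
        (((td h').eventually (eventually_all.2 e)).mono fun x r => by simp only [r])).congr' ?_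
  filter_upwards [eventually_gt_atTop R, eventually_gt_atTop 0,
    eventually_ge_atTop (‖lm A‖ * |R|)] with r r1 r0 r2
  have c1 : HasCompactSupport (cut r : E n → ℝ) :=
    .intro (isCompact_closedBall 0 (2 * r)) fun x k =>
      cut_zero r0 (not_le.1 (mem_closedBall_zero_iff.not.1 k)).le
  have k1 : ∫ y, ∑ i, pd i (cut r) y * W i y = ∫ y, ∑ i, pd i (cut r) y * U i y :=
    integral_congr_ae (.of_forall fun y => by
      rcases lt_or_ge ‖y‖ r with k | k
      · simp only [pd_cut_in k, zero_mul]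
      · simp only [(hR y (r1.trans_le k)).2.1])
  rw [k1, flux_eq hU (R := R) (fun y k => by simpa only [(hR y k).2.2] using (hR y k).1)
    (sm_cut r) (ψ := fun y => cut r (lm A y)) (ContDiff.comp (g := cut r) (sm_cut r) (lm A).contDiff) c1
    (c1.comp_homeomorph (le h).toHomeomorph) fun y k => by
      rw [cut_one (k.trans r1.le), cut_one (((lm A).le_opNorm y).trans
        ((mul_le_mul_of_nonneg_left (k.trans (le_abs_self R)) (norm_nonneg _)).trans r2))]]
  have k2 := int_lm h fun x => ∑ k, pd k (cut r) x * ∑ i, A k i * U i (lm B x)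
  rw [← integral_const_mul] at k2
  refine Eq.trans (integral_congr_ae (.of_forall fun x => ?_))
    (k2.symm.trans (integral_congr_ae (.of_forall fun y => ?_)))
  · simp only [Finset.mul_sum]
    exact Finset.sum_congr rfl fun k _ => Finset.sum_congr rfl fun i _ => by ring
  · simp only [lm_lm h', pd_lm ((sm_cut r).diff _), Finset.mul_sum, Finset.sum_mul]
    rw [Finset.sum_comm]
    exact Finset.sum_congr rfl fun k _ => Finset.sum_congr rfl fun i _ => by ring

/-- the limits -/
theorem lims (hn : 3 ≤ n) {u w : E n → ℝ} {m k : ℝ} (hm : 0 < m)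
    (h0 : Tendsto u (cocompact (E n)) (𝓝 1))
    (h1 : Tendsto (fun x => (u x - 1) * ‖x‖ ^ (n - 2 : ℝ)) (cocompact (E n)) (𝓝 (-m)))
    (h2 : Tendsto (fun x => w x * ‖x‖ ^ (2 * (n - 1) : ℝ)) (cocompact (E n)) (𝓝 k)) :
    (∀ᶠ x in cocompact (E n), u x < 1) ∧
      Tendsto (fun x => w x / (1 - u x ^ 2) ^ ex n) (cocompact (E n)) (𝓝 (k / (2 * m) ^ ex n)) := by
  have n3 : (3 : ℝ) ≤ n := by exact_mod_cast hn
  have h3 : Tendsto (fun x => (1 - u x ^ 2) * ‖x‖ ^ (n - 2 : ℝ)) (cocompact (E n)) (𝓝 (2 * m)) := by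
    have := (h1.mul (h0.add_const 1)).neg
    rw [show -(-m * (1 + 1)) = 2 * m by ring] at this
    exact this.congr fun x => by ring
  have p : 0 < 2 * m := by positivity
  refine ⟨?_, (h2.div (h3.rpow_const (Or.inl p.ne')) (Real.rpow_pos_of_pos p _).ne').congr' ?_⟩
  · filter_upwards [h1.eventually (gt_mem_nhds (neg_neg_of_pos hm)), ev_pos] with x k r
    exact sub_neg.1 (neg_of_mul_neg_left k (by positivity))
  filter_upwards [h3.eventually (lt_mem_nhds p), ev_pos] with x k r
  have : (n - 2 : ℝ) ≠ 0 := by linarith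
  rw [Pi.div_apply, Real.mul_rpow (pos_of_mul_pos_left k (by positivity)).le (by positivity),
    ← Real.rpow_mul r.le, show (n - 2 : ℝ) * ex n = 2 * (n - 1) by unfold ex; field_simp,
    mul_div_mul_right _ _ (Real.rpow_pos_of_pos r _).ne']

theorem end_of (_ : OC) (hN : NEW) : END := by
  intro n h V H q m hn hq hm hH hh hV hl hf
  have n3 : (3 : ℝ) ≤ n := by exact_mod_cast hn
  have q0 : 0 < q := by linarith
  obtain ⟨A, B, ab, e1, e2⟩ := ex_root hH
  have ba := mul_eq_one_comm.1 ab
  have d0 := hH.det_pos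
  have D0 : 0 < √H.det := Real.sqrt_pos.2 d0
  have ou : ∀ i j, O2 q (H⁻¹ i j) (up h i j) := o_inv (M := mat h) q0 d0.ne' hh
  have od : O2 q (√H.det) (dens h) := o_comp q0 (o_det (M := mat h) q0 hh) (φ := fun t => √t)
    ((eventually_ne_nhds d0.ne').mono fun t ht => Real.contDiffAt_sqrt ht)
  have oc := fun i j => o_mul q0 od (ou i j)
  have eW : ∀ i, (fun y => dens h y * gr h V i y) = fun y => ∑ j, dens h y * up h i j y * pd j V y :=
    fun i => funext fun y => by simp only [gr, Finset.mul_sum, mul_assoc]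
  have dW : ∀ᶠ y in cocompact (E n), ∑ i, pd i (fun y => dens h y * gr h V i y) y = 0 := by
    filter_upwards [ev_iff.2 hl, (tendsto_sub_nhds_zero_iff.1
      ((bo_iff.1 od.d0).lim0 q0)).eventually (lt_mem_nhds D0)] with y k p
    exact (div_eq_zero_iff.1 k.2).resolve_right p.ne'
  obtain ⟨d, β, hd, b1, b2⟩ := expand hN hn hq ba hV
    (e1 ▸ bo_lap D0.ne' oc hV (by simpa only [eW] using dW))
  set κ : ℝ := -((n - 2) * β)
  have b3 : ∀ i, Bo (n - 1) (gp B V i) := fun i =>
    (((b2 i).mono (by linarith)).add (bo_mod κ i)).congr (.of_forall fun x => by simp)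
  have b4 : ∀ j, Bo (n - 1) fun x => pd j V (lm B x) := fun j =>
    (Bo.sum fun k => (b3 k).cm (A k j)).congr (.of_forall (pd_gp ba V j))
  have ah : ∀ k j, ∑ i, A k i * H⁻¹ i j = B j k := fun k j => by
    rw [← Matrix.mul_apply, e1, ← Matrix.mul_assoc, ab, Matrix.one_mul, Matrix.transpose_apply]
  have fl := flux_new (by omega) ab (W := fun i y => dens h y * gr h V i y) (κ := κ)
    (lt_min hd q0) (fun i => by
      rw [eW]
      filter_upwards [o_sm hV, eventually_all.2 fun j => o_sm (oc i j)] with y v s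
      exact ContDiffAt.sum fun j _ => (s j).mul (contDiffAt_pd (k := ∞) v (by norm_num) j)) dW
    fun k => (((b2 k).mono (by linarith [min_le_left d q])).add ((Bo.sum fun i => Bo.sum fun j =>
      ((((bo_iff.1 (oc i j).d0).comp (le ba)).mul (b4 j)
        (by linarith [min_le_right d q])).cm (A k i))).cm |A.det|⁻¹)).congr (.of_forall fun x => by
      have k1 : gp B V k x = ∑ i, ∑ j, A k i * H⁻¹ i j * pd j V (lm B x) := by
        rw [Finset.sum_comm]
        simp only [gp, ← Finset.sum_mul, ah]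
      beta_reduce
      rw [← e2, sub_add_eq_add_sub, k1]
      simp only [gr, Finset.mul_sum, ← Finset.sum_add_distrib]
      refine congrArg (· - _) (Finset.sum_congr rfl fun i _ => Finset.sum_congr rfl fun j _ => ?_)
      change _ = _ + _ * (_ * ((dens h (lm B x) * up h i j (lm B x) - _) * _))
      field_simp
      ring)
  have eβ : β = -m := by
    have := tendsto_nhds_unique fl (hf.congr fun r => integral_congr_ae (.of_forall fun y => by
      simp only [Finset.sum_mul]
      exact Finset.sum_congr rfl fun i _ => by ring))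
    have p : 0 < (n - 2 : ℝ) * omega n := mul_pos (by linarith) (omega_pos (by omega))
    refine mul_left_cancel₀ p.ne' ?_
    simp only [κ] at this
    linarith
  have l2 : Bo (2 * (n - 1) + min d q) fun x =>
      ip h V V (lm B x) - κ ^ 2 * ‖x‖ ^ (-(2 * (n - 1)) : ℝ) := by
    refine ((Bo.sum fun i => Bo.sum fun j => ((((bo_iff.1 (ou i j).d0).comp (le ba)).mul (b4 i)
      le_rfl).mul (b4 j) (by linarith [min_le_right d q]))).add (Bo.sum fun k => (b2 k).mul
        ((b3 k).add (bo_mod κ k)) (by linarith [min_le_left d q]))).congr (ev_pos.mono fun x r => ?_)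
    have k1 : ∑ k, gp B V k x ^ 2 = ∑ i, ∑ j, H⁻¹ i j * pd i V (lm B x) * pd j V (lm B x) := by
      simp only [gp, sq, e1, Matrix.mul_apply, Matrix.transpose_apply, Finset.sum_mul,
        Finset.mul_sum]
      rw [Finset.sum_comm]
      conv_rhs => rw [Finset.sum_comm]
      refine Finset.sum_congr rfl fun j _ => ?_
      rw [Finset.sum_comm]
      exact Finset.sum_congr rfl fun i _ => Finset.sum_congr rfl fun k _ => by ring
    have k2 : ∑ k, (κ * x k * ‖x‖ ^ (-n : ℝ)) ^ 2 = κ ^ 2 * ‖x‖ ^ (-(2 * (n - 1)) : ℝ) := by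
      simp only [mul_pow, ← Finset.sum_mul, ← Finset.mul_sum, ← norm_sq_eq]
      rw [mul_assoc, ← Real.rpow_natCast ‖x‖, ← Real.rpow_natCast (_ ^ _), ← Real.rpow_mul r.le,
        ← Real.rpow_add r]
      congr 2
      push_cast
      ring
    have k3 : ∀ s t : ℝ, (s - t) * (s + t) = s ^ 2 - t ^ 2 := fun s t => by ring
    simp only [k3, Finset.sum_sub_distrib, k1, k2, sub_mul, ip]
    change _ = ∑ i, ∑ j, up h i j (lm B x) * pd i V (lm B x) * pd j V (lm B x) - _ + _
    ring
  obtain ⟨r1, r2⟩ := lims hn hm (u := fun x => V (lm B x)) (w := fun x => ip h V V (lm B x))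
    (tendsto_sub_nhds_zero_iff.1 (((bo_iff.1 hV.d0).comp (le ba)).lim0 q0))
    (eβ ▸ b1.lim hd) (l2.lim (lt_min hd q0))
  refine ⟨((td ab).eventually r1).mono fun y k => by simpa only [lm_lm ba] using k, ?_⟩
  rw [show ((n - 2) * m) ^ 2 = κ ^ 2 by simp only [κ, eβ]; ring]
  exact (r2.comp (td ab)).congr fun y => by simp only [Function.comp, lm_lm ba]

end Vale.Agent.P366EN
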