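import Vale.Agent.P366HB.Defs
import Vale.Agent.P366Z.Calc3
import Mathlib.Analysis.Calculus.LagrangeMultipliers

/-!
# P366EN: a section of the horizon is marginally trapped
-/

open Filter Topology Set
open scoped ContDiff
open Vale.Agent.P366.Stmt Vale.Agent.P366Z
open Vale.Agent.P366RB (lo cK)
open Vale.Agent.P366HB (Kd MOTS)

noncomputable section

namespace Vale.Agent.P366EN

variable {n : ℕ} {g K a : Field n} {N u f h φ : E n → ℝ} {X p η : Fin n → E n → ℝ} {z : E n}

theorem freq (hu : DifferentiableAt ℝ u z) (h0 : u z = 0) (hd : ∃ i, pd i u z ≠ 0) :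
    ∃ᶠ w in 𝓝 z, 0 < u w := fun k => by
  obtain ⟨i, hi⟩ := hd
  have m : IsLocalMax u z := k.mono fun w r => by rw [h0]; exact not_lt.1 r
  exact hi (by rw [pd_eq hu, m.fderiv_eq_zero]; rfl)

theorem cl (F : ∃ᶠ w in 𝓝 z, 0 < u w) (hf : Continuous f) (hh : Continuous h)
    (e : ∀ᶠ w in 𝓝 z, 0 < u w → f w = h w) : f z = h z :=
  tendsto_nhds_unique_of_frequently_eq hf.continuousAt hh.continuousAt
    ((F.and_eventually e).mono fun _ k => k.2 k.1)

theorem dcl (F : ∃ᶠ w in 𝓝 z, 0 < u w) (hu : ∀ᶠ w in 𝓝 z, ContinuousAt u w) (hf : Smooth f)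
    (hh : Smooth h) (e : ∀ᶠ w in 𝓝 z, 0 < u w → f w = h w) (m : Fin n) : pd m f z = pd m h z :=
  cl F (hf.pd m).cont (hh.pd m).cont ((hu.and e.eventually_nhds).mono fun _ k r =>
    pd_congr (((k.1.eventually (lt_mem_nhds r)).and k.2).mono fun _ s => s.2 s.1) m)

/-- a function which vanishes on the level set -/
theorem van (hu : ContDiffAt ℝ 1 u z) (h0 : u z = 0) (hd : ∃ i, pd i u z ≠ 0)
    (hf : ContDiffAt ℝ 1 f z) (e : ∀ᶠ w in 𝓝 z, u w = 0 → f w = 0) :
    ∃ c, ∀ i, pd i f z = c * pd i u z := by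
  have m : IsLocalMinOn f {w | u w = u z} z := eventually_nhdsWithin_iff.2 (e.mono fun w k r => by
    rw [e.self_of_nhds h0, k (r.trans h0)])
  obtain ⟨s, t, ne, k⟩ := IsLocalExtrOn.exists_multipliers_of_hasStrictFDerivAt_1d (Or.inl m)
    (hu.hasStrictFDerivAt one_ne_zero) (hf.hasStrictFDerivAt one_ne_zero)
  have k1 : ∀ i, s * pd i u z + t * pd i f z = 0 := fun i => by
    rw [pd_eq (hu.differentiableAt one_ne_zero), pd_eq (hf.differentiableAt one_ne_zero)]
    exact DFunLike.congr_fun k _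
  have t0 : t ≠ 0 := fun r => by
    obtain ⟨i, hi⟩ := hd
    have := k1 i
    rw [r, zero_mul, add_zero] at this
    exact ne (by rw [r, (mul_eq_zero.1 this).resolve_right hi]; rfl)
  exact ⟨-s / t, fun i => by field_simp; linarith [k1 i]⟩

theorem gn_pos (hg : Met g) (hd : ∃ i, pd i u z ≠ 0) : 0 < gn g u z :=
  Real.sqrt_pos.2 (hg.up_pos z (ξ := fun i => pd i u z) fun k => hd.elim fun i r => r (congrFun k i))

/-- the projection to the tangent space of the level set -/
def pr (g : Field n) (u : E n → ℝ) (z : E n) (i j : Fin n) : ℝ :=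
  up g i j z - nrm g u i z * nrm g u j z

theorem trS_eq (g T : Field n) (u : E n → ℝ) (z : E n) :
    trS g T u z = ∑ i, ∑ j, pr g u z i j * T z i j := by
  simp only [trS, tr, pr, ← Finset.sum_sub_distrib]
  exact Finset.sum_congr rfl fun i _ => Finset.sum_congr rfl fun j _ => by ring

theorem pt0 (hg : Met g) (hd : ∃ i, pd i u z ≠ 0) {T S : Fin n → Fin n → ℝ} {c d : Fin n → ℝ}
    (sk : ∀ i j, S i j = -S j i) (e : ∀ i j, T i j = S i j + pd i u z * c j + d i * pd j u z) :
    ∑ i, ∑ j, pr g u z i j * T i j = 0 := by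
  have w := (gn_pos hg hd).ne'
  have sy : ∀ i j, pr g u z i j = pr g u z j i := fun i j => by rw [pr, pr, hg.up_sy, mul_comm]
  have k0 : ∑ j, nrm g u j z * pd j u z = gn g u z := by
    have := hg.gn_sq u z
    rw [ip_eq_gr] at this
    simp only [nrm, ← gn_eq_covNorm, div_mul_eq_mul_div, ← Finset.sum_div]
    rw [div_eq_iff w, ← sq, this]
    exact Finset.sum_congr rfl fun j _ => mul_comm _ _
  have k1 : ∀ i, ∑ j, pr g u z i j * pd j u z = 0 := fun i => by
    simp only [pr, sub_mul, Finset.sum_sub_distrib, mul_assoc, ← Finset.mul_sum, k0]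
    rw [nrm, ← gn_eq_covNorm, div_mul_cancel₀ _ w, sub_self]
  have k2 : ∑ i, ∑ j, pr g u z i j * S i j = -∑ i, ∑ j, pr g u z i j * S i j := by
    conv_lhs => rw [Finset.sum_comm]
    simp only [← Finset.sum_neg_distrib]
    exact Finset.sum_congr rfl fun i _ => Finset.sum_congr rfl fun j _ => by
      rw [sy j i, sk j i, mul_neg]
  have k3 : ∑ i, ∑ j, pr g u z i j * (pd i u z * c j) = 0 := by
    rw [Finset.sum_comm]
    exact Finset.sum_eq_zero fun j _ => by
      simp only [← mul_assoc, ← Finset.sum_mul, fun i => sy i j, k1, zero_mul]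
  have k4 : ∑ i, ∑ j, pr g u z i j * (d i * pd j u z) = 0 := Finset.sum_eq_zero fun i _ => by
    simp only [mul_left_comm _ (d i), ← Finset.mul_sum, k1, mul_zero]
  simp only [e, mul_add, Finset.sum_add_distrib, k3, k4]
  linarith

/-- a covector field which is normal along the level set -/
theorem hs (hu : ContDiffAt ℝ 2 u z) (h0 : u z = 0) (hd : ∃ i, pd i u z ≠ 0)
    (hη : ∀ j, Smooth (η j)) (hφ : ContDiffAt ℝ 1 φ z)
    (e : ∀ᶠ w in 𝓝 z, u w = 0 → ∀ j, η j w = φ w * pd j u w) :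
    ∃ c d : Fin n → ℝ, ∀ i j, φ z * hess g u z i j =
      (pd i (η j) z - ∑ l, chr g l i j z * η l z) + pd i u z * c j + d i * pd j u z := by
  have d1 := hφ.differentiableAt one_ne_zero
  choose c hc using fun j => van (hu.of_le one_le_two) h0 hd (f := fun w => η j w - φ w * pd j u w)
    (((hη j).c1 z).sub (hφ.mul (contDiffAt_pd hu (by norm_num) j)))
    (e.mono fun w k r => by rw [k r, sub_self])
  refine ⟨fun j => -c j, fun i => -pd i φ z, fun i j => ?_⟩
  have := hc j i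
  rw [pd_sub ((hη j).diff z) (d1.fun_mul (diffAt_pd hu j)), pd_mul d1 (diffAt_pd hu j)] at this
  simp only [hess, e.self_of_nhds h0, mul_left_comm _ (φ z), ← Finset.mul_sum]
  linarith

theorem sm_lo (hg : Met g) (hX : ∀ i, Smooth (X i)) (j : Fin n) : Smooth (lo g X j) :=
  ContDiff.sum fun k _ => ContDiff.mul (hg.sm j k) (hX k)

theorem pd_lo (hg : Met g) (h : Kd g K a N X p z) (i j : Fin n) :
    pd i (lo g X j) z = a z i j - N z * K z i j + ∑ l, chr g l i j z * lo g X l z := by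
  have d := fun k => (h.smX k).differentiableAt (by simp)
  rw [← h.dX]
  unfold lo
  rw [pd_sum _ fun k _ => ((hg.sm j k).diff z).fun_mul (d k)]
  simp only [pd_mul ((hg.sm _ _).diff z) (d _), hg.pd_g i j, mul_add, add_mul,
    Finset.sum_add_distrib, Finset.mul_sum, Finset.sum_mul]
  rw [Finset.sum_comm (f := fun k l => g z k l * chr g l i j z * X k z),
    Finset.sum_comm (f := fun k l => g z j l * chr g l i k z * X k z)]
  have e1 : ∑ l, ∑ k, g z k l * chr g l i j z * X k z =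
      ∑ l, ∑ k, chr g l i j z * (g z l k * X k z) :=
    Finset.sum_congr rfl fun l _ => Finset.sum_congr rfl fun k _ => by rw [hg.sy z k l]; ring
  simp only [mul_assoc] at e1 ⊢
  rw [e1]
  ring

/-- the local hypotheses -/
structure Lo (g K a : Field n) (N u : E n → ℝ) (X p : Fin n → E n → ℝ) (z : E n) : Prop where
  hg : Met g
  hK : ∀ i j, Smooth fun w => K w i j
  hN : Smooth N
  hX : ∀ i, Smooth (X i)
  hp : ∀ i, Smooth (p i)
  ha : ∀ i j, Smooth fun w => a w i j
  hu : ∀ᶠ w in 𝓝 z, ContDiffAt ℝ ∞ u w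
  hd : ∃ i, pd i u z ≠ 0
  e : ∀ᶠ w in 𝓝 z, (0 < u w → Kd g K a N X p w) ∧
    (u w = 0 → (∀ i, X i w = N w * nrm g u i w) ∧ ∃ i, p i w ≠ 0)

namespace Lo

variable (L : Lo g K a N u X p z)
include L

theorem c2 : ContDiffAt ℝ 2 u z := L.hu.self_of_nhds.of_le (by norm_cast)

theorem c1 (i : Fin n) : ContDiffAt ℝ 1 (pd i u) z := contDiffAt_pd L.c2 (by norm_num) i

theorem ev : ∀ᶠ w in 𝓝 z, Lo g K a N u X p w := by
  obtain ⟨i, hi⟩ := L.hd
  filter_upwards [L.hu.eventually_nhds, L.e.eventually_nhds,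
    (L.c1 i).continuousAt.eventually_ne hi] with w k1 k2 k3
  exact ⟨L.hg, L.hK, L.hN, L.hX, L.hp, L.ha, k1, ⟨i, k3⟩, k2⟩

theorem fr (h0 : u z = 0) : ∃ᶠ w in 𝓝 z, 0 < u w := freq (diff2 L.c2) h0 L.hd

theorem smr (i j : Fin n) :
    Smooth fun w => a w i j - N w * K w i j + ∑ l, chr g l i j w * lo g X l w :=
  ContDiff.add (ContDiff.sub (L.ha i j) (ContDiff.mul L.hN (L.hK i j)))
    (ContDiff.sum fun l _ => ContDiff.mul (L.hg.sm_chr l i j) (sm_lo L.hg L.hX l))

theorem sk (h0 : u z = 0) (i j : Fin n) : a z i j = -a z j i :=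
  cl (L.fr h0) (L.ha i j).cont (L.ha j i).cont.neg (L.e.mono fun _ k r => (k.1 r).sk i j)

theorem dX (h0 : u z = 0) (i j : Fin n) :
    pd i (lo g X j) z = a z i j - N z * K z i j + ∑ l, chr g l i j z * lo g X l z :=
  cl (L.fr h0) ((sm_lo L.hg L.hX j).pd i).cont (L.smr i j).cont
    (L.e.mono fun _ k r => pd_lo L.hg (k.1 r) i j)

theorem dN (h0 : u z = 0) (i : Fin n) : pd i N z = p i z - ∑ j, K z i j * X j z :=
  cl (L.fr h0) (L.hN.pd i).cont ((L.hp i).cont.sub (continuous_finsetSum _ fun j _ =>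
    (L.hK i j).cont.mul (L.hX j).cont)) (L.e.mono fun _ k r => (k.1 r).dN i)

theorem dp (h0 : u z = 0) (n0 : N z = 0) (x0 : ∀ i, X i z = 0) (a0 : ∀ i j, a z i j = 0)
    (i j : Fin n) : pd i (p j) z - ∑ l, chr g l i j z * p l z = 0 := by
  have k1 := fun k i j => (L.hg.sm_chr k i j).cont
  have k2 := fun m k i j => ((L.hg.sm_chr k i j).pd m).cont
  have k3 := fun i j => (L.hK i j).cont
  have k4 := fun m i j => ((L.hK i j).pd m).cont
  have k5 := fun i j => (L.hg.sm_up i j).cont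
  have k6 := fun i j => (L.ha i j).cont
  have k7 := fun i => (L.hX i).cont
  have k8 := fun i => (L.hp i).cont
  have k9 := L.hN.cont
  have k0 := ((L.hp j).pd i).cont
  refine (cl (L.fr h0) (by fun_prop) (by unfold P366Y.C.rc cK tr; fun_prop)
    (L.e.mono fun _ k r => (k.1 r).dp i j)).trans ?_
  simp [n0, x0, a0]

theorem cg : ContDiffAt ℝ 1 (gn g u) z :=
  (ContDiffAt.sum fun i _ => ContDiffAt.sum fun j _ => (((L.hg.sm_up i j).c1 z).mul (L.c1 i)).mul
    (L.c1 j)).sqrt (Real.sqrt_pos.1 (gn_pos L.hg L.hd)).ne'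

/-- the first case -/
theorem one (h0 : u z = 0) : N z * thetaPlus g K u z = 0 := by
  obtain ⟨c, d, k⟩ := hs (g := g) L.c2 h0 L.hd (sm_lo L.hg L.hX) (φ := fun w => N w / gn g u w)
    ((L.hN.c1 z).div L.cg (gn_pos L.hg L.hd).ne') (L.e.mono fun w k r j => by
      simp only [lo, (k.2 r).1, nrm, ← gn_eq_covNorm, mul_left_comm _ (N w), ← Finset.mul_sum,
        ← mul_div_assoc, ← Finset.sum_div, L.hg.g_up_mul]
      ring)
  rw [← pt0 L.hg L.hd (T := fun i j => N z / gn g u z * hess g u z i j + N z * K z i j) (L.sk h0)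
    (c := c) (d := d) fun i j => by rw [k, L.dX h0]; ring]
  simp only [thetaPlus, trS_eq, ← gn_eq_covNorm, Finset.sum_div, ← Finset.sum_add_distrib,
    Finset.mul_sum]
  exact Finset.sum_congr rfl fun i _ => Finset.sum_congr rfl fun j _ => by ring

variable (h0 : u z = 0) (n0 : ∀ᶠ w in 𝓝 z, u w = 0 → N w = 0)
include h0 n0

theorem x0 (i : Fin n) : X i z = 0 := by
  rw [(L.e.self_of_nhds.2 h0).1, n0.self_of_nhds h0, zero_mul]

theorem l0 (i : Fin n) : lo g X i z = 0 := by simp [lo, L.x0 h0 n0]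

theorem p0 : ∃ c, ∀ i, p i z = c * pd i u z := by
  obtain ⟨c, k⟩ := van (L.c2.of_le one_le_two) h0 L.hd (L.hN.c1 z) n0
  exact ⟨c, fun i => by simpa [L.dN h0, L.x0 h0 n0] using k i⟩

theorem a0 (i j : Fin n) : a z i j = 0 := by
  choose c k using fun j => van (L.c2.of_le one_le_two) h0 L.hd ((sm_lo L.hg L.hX j).c1 z)
    ((L.ev.and n0.eventually_nhds).mono fun w k r => k.1.l0 r k.2 j)
  have e : ∀ i j, a z i j = c j * pd i u z := fun i j => by
    simpa [L.dX h0, L.l0 h0 n0, n0.self_of_nhds h0] using k j i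
  obtain ⟨m, hm⟩ := L.hd
  have c0 : c m = 0 := by
    have := L.sk h0 m m
    rw [e] at this
    exact (mul_eq_zero.1 (by linarith : c m * pd m u z = 0)).resolve_right hm
  have := L.sk h0 m j
  rw [e, e, c0, zero_mul, neg_zero] at this
  rw [e, (mul_eq_zero.1 this).resolve_right hm, zero_mul]

/-- the second case -/
theorem two : thetaPlus g K u z = 0 := by
  obtain ⟨m, hm⟩ := L.hd
  have ev := L.ev.and n0.eventually_nhds
  obtain ⟨c, hc⟩ := L.p0 h0 n0
  have c0 : c ≠ 0 := fun r => (L.e.self_of_nhds.2 h0).2.elim fun i k => k (by rw [hc, r, zero_mul])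
  obtain ⟨s, d, k⟩ := hs (g := g) L.c2 h0 L.hd L.hp (φ := fun w => p m w / pd m u w)
    (((L.hp m).c1 z).div (L.c1 m) hm) (by
      filter_upwards [ev, (L.c1 m).continuousAt.eventually_ne hm] with w k r w0 j
      obtain ⟨t, ht⟩ := k.1.p0 w0 k.2
      rw [ht, ht, mul_div_cancel_right₀ _ r])
  have e1 := pt0 L.hg L.hd (S := 0) (c := s) (d := d) (T := fun i j => c * hess g u z i j)
    (fun _ _ => neg_zero.symm) fun i j => by
      have := k i j
      rwa [hc m, mul_div_cancel_right₀ _ hm,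
        L.dp h0 (n0.self_of_nhds h0) (L.x0 h0 n0) (L.a0 h0 n0)] at this
  choose α hα using fun i j => van (L.c2.of_le one_le_two) h0 L.hd ((L.ha i j).c1 z)
    (ev.mono fun w k r => k.1.a0 r k.2 i j)
  have hu := L.hu.mono fun _ k => k.continuousAt
  have sk : ∀ i j, α i j = -α j i := fun i j => mul_right_cancel₀ hm (by
    rw [neg_mul, ← hα, ← hα, ← pd_neg]
    exact dcl (L.fr h0) hu (L.ha i j) (ContDiff.neg (L.ha j i))
      (L.e.mono fun _ k r => (k.1 r).sk i j) m)
  have d2 : ∀ k i j, pd k (pd i (lo g X j)) z = pd k u z * (α i j - c * K z i j) := fun k i j => by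
    have s1 := fun l => (sm_lo L.hg L.hX l).diff z
    have s2 := fun l => (L.hg.sm_chr l i j).diff z
    have s3 := (L.hN.diff z).fun_mul ((L.hK i j).diff z)
    rw [dcl (L.fr h0) hu ((sm_lo L.hg L.hX j).pd i) (L.smr i j)
      (L.e.mono fun _ k r => pd_lo L.hg (k.1 r) i j) k, pd_add (((L.ha i j).diff z).fun_sub s3)
      (DifferentiableAt.fun_sum fun l _ => (s2 l).fun_mul (s1 l)), pd_sub ((L.ha i j).diff z) s3,
      pd_mul (L.hN.diff z) ((L.hK i j).diff z), pd_sum _ fun l _ => (s2 l).fun_mul (s1 l), hα]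
    simp only [pd_mul (s2 _) (s1 _), L.dX h0, L.dN h0, L.l0 h0 n0, L.x0 h0 n0, L.a0 h0 n0, hc,
      n0.self_of_nhds h0, mul_zero, zero_mul, sub_zero, add_zero, Finset.sum_const_zero]
    ring
  have e2 := pt0 L.hg L.hd sk (T := fun i j => c * K z i j) (d := 0)
    (c := fun j => -(α m j - c * K z m j) / pd m u z) fun i j => by
      have := pd_comm ((sm_lo L.hg L.hX j).c2 z) m i
      rw [d2, d2] at this
      simp only [Pi.zero_apply]
      field_simp
      linarith
  simp only [mul_left_comm _ c, ← Finset.mul_sum, ← trS_eq, mul_eq_zero, c0, false_or] at e1 e2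
  rw [thetaPlus, e1, e2, zero_div, add_zero]

end Lo

theorem mots : MOTS := by
  intro n g K a N u X p y hg hK _ hN hX hp ha hu h0 hd e
  have L : Lo g K a N u X p y := ⟨hg, hK, hN, hX, hp, ha, hu, hd, e⟩
  by_contra k
  have k1 := fun k i j => (hg.sm_chr k i j).cont
  have k3 := fun i j => (hK i j).cont
  have k5 := fun i j => (hg.sm_up i j).cont
  have k6 := fun i => (L.c1 i).continuousAt
  have k7 := fun i j => (contDiffAt_pd (k := 0) (L.c1 j) (by norm_num) i).continuousAt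
  have k8 := L.cg.continuousAt
  have k9 := (gn_pos hg hd).ne'
  have c : ContinuousAt (thetaPlus g K u) y := by
    unfold thetaPlus trS tr hess nrm
    simp only [← gn_eq_covNorm]
    fun_prop (disch := exact k9)
  exact k (L.two h0 ((L.ev.and (c.eventually_ne k)).mono fun w r s =>
    (mul_eq_zero.1 (r.1.one s)).resolve_right r.2))

end Vale.Agent.P366EN
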