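import Vale.Agent.P366F.Defs
import Vale.Agent.P366XR.Cov

/-!
# P366EN: the null convergence condition, and vacuum where the multiplier is timelike
-/

open Filter Topology Set
open scoped ContDiff
open Vale.Agent.P366 Vale.Agent.P366.Stmt Vale.Agent.P366Z
open Vale.Agent.P366RB (lo cK)
open Vale.Agent.P366P (cd)
open Vale.Agent.P366F

noncomputable section

namespace Vale.Agent.P366EN

variable {n : ℕ} {g K : Field n} {N : E n → ℝ} {X : Fin n → E n → ℝ} {y : E n}

/-- the pointwise conditions -/
structure Du (g K : Field n) (N : E n → ℝ) (X : Fin n → E n → ℝ) (y : E n) : Prop where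
  dec : covNorm g (mom g K) y ≤ mu g K y
  nn : 0 ≤ N y
  le : P366RB.sq g X y ≤ N y ^ 2
  dust : N y * mu g K y + ∑ j, X j y * mom g K j y = 0

theorem up_lo (hg : Met g) (X : Fin n → E n → ℝ) (y : E n) (b : Fin n → ℝ) :
    ∑ i, ∑ j, up g i j y * lo g X i y * b j = ∑ j, X j y * b j := by
  rw [Finset.sum_comm]
  refine Finset.sum_congr rfl fun j _ => ?_
  rw [← Finset.sum_mul, ← hg.up_g_mul y j fun l => X l y]
  simp only [hg.up_sy j, lo]

theorem sq_lo (g : Field n) (X : Fin n → E n → ℝ) (y : E n) :
    ∑ j, X j y * lo g X j y = P366RB.sq g X y := by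
  simp only [lo, P366RB.sq, Finset.mul_sum]
  exact Finset.sum_congr rfl fun i _ => Finset.sum_congr rfl fun j _ => by ring

theorem Du.mu0 (h : Du g K N X y) : 0 ≤ mu g K y := (Real.sqrt_nonneg _).trans h.dec

theorem Du.par (hg : Met g) (h : Du g K N X y) (i : Fin n) :
    N y * mom g K i y + mu g K y * lo g X i y = 0 := by
  by_contra k
  have p := hg.up_pos y (ξ := fun i => N y * mom g K i y + mu g K y * lo g X i y)
    fun r => k (congrFun r i)
  have e : ∑ i, ∑ j, up g i j y * (N y * mom g K i y + mu g K y * lo g X i y) *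
      (N y * mom g K j y + mu g K y * lo g X j y) =
      N y ^ 2 * ∑ i, ∑ j, up g i j y * mom g K i y * mom g K j y +
        N y * mu g K y * ∑ j, ∑ i, up g j i y * lo g X j y * mom g K i y +
        N y * mu g K y * ∑ i, ∑ j, up g i j y * lo g X i y * mom g K j y +
        mu g K y ^ 2 * ∑ i, ∑ j, up g i j y * lo g X i y * lo g X j y := by
    nth_rw 1 [Finset.sum_comm (f := fun j i => up g j i y * lo g X j y * mom g K i y)]
    simp only [Finset.mul_sum, ← Finset.sum_add_distrib]
    exact Finset.sum_congr rfl fun i _ => Finset.sum_congr rfl fun j _ => by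
      rw [hg.up_sy j i]; ring
  rw [e, up_lo hg, up_lo hg, sq_lo, eq_neg_of_add_eq_zero_right h.dust] at p
  have k1 := Real.sqrt_le_iff.1 h.dec
  nlinarith [mul_le_mul_of_nonneg_left k1.2 (sq_nonneg (N y)),
    mul_le_mul_of_nonneg_left h.le (sq_nonneg (mu g K y))]

theorem Du.ncc (hg : Met g) (h : Du g K N X y) (q : Kq g K N X y) (u : E n → ℝ) :
    0 ≤ P366XR.Nc g K N X u y := by
  set x := ∑ i, lo g X i y * nrm g u i y with hx
  set j := ∑ i, mom g K i y * nrm g u i y with hj
  have e1 : tr g (P366XR.EE g K N X) y = ∑ j, X j y * mom g K j y := by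
    have k := up_lo hg X y fun j => mom g K j y
    have k' := k
    rw [Finset.sum_comm] at k'
    rw [tr, ← add_halves (∑ j, X j y * mom g K j y), ← add_div]
    nth_rw 1 [← k]
    rw [← k']
    simp only [q.ee, ← Finset.sum_add_distrib, Finset.sum_div]
    exact Finset.sum_congr rfl fun i _ => Finset.sum_congr rfl fun j _ => by
      rw [hg.up_sy j i]; ring
  have e2 : ∑ i, ∑ j, P366XR.EE g K N X y i j * nrm g u i y * nrm g u j y = x * j := by
    rw [← add_halves (x * j), ← add_div]
    nth_rw 2 [mul_comm x j]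
    simp only [q.ee, hx, hj, Finset.sum_mul_sum, ← Finset.sum_add_distrib, Finset.sum_div]
    exact Finset.sum_congr rfl fun i _ => Finset.sum_congr rfl fun j _ => by ring
  have e3 : N y * j + mu g K y * x = 0 := by
    simp only [hx, hj, Finset.mul_sum, ← Finset.sum_add_distrib, ← mul_assoc, ← add_mul, h.par hg,
      zero_mul, Finset.sum_const_zero]
  rw [P366XR.Nc, trS, e1, e2, ← hj, eq_neg_of_add_eq_zero_right h.dust]
  rcases h.nn.eq_or_lt with r | r
  · have : (fun i => X i y) = 0 := by
      by_contra k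
      have := (hg.g_pos y k).trans_le h.le
      rw [← r] at this
      simp at this
    have x0 : x = 0 := by simp [hx, lo, fun i => show X i y = 0 from congrFun this i]
    simp [← r, x0]
  · refine nonneg_of_mul_nonneg_right (b := _) (le_of_le_of_eq
      (mul_nonneg h.mu0 (sq_nonneg (N y - x))) ?_) r |>.trans_eq rfl
    linear_combination (x - 2 * N y) * e3

theorem sw4 (f : Fin n → Fin n → Fin n → Fin n → ℝ) :
    ∑ i, ∑ j, ∑ k, ∑ l, f i j k l = ∑ k, ∑ l, ∑ i, ∑ j, f i j k l := by
  have := Finset.sum_comm (s := Finset.univ) (t := Finset.univ)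
    (f := fun (p q : Fin n × Fin n) => f p.1 p.2 q.1 q.2)
  simpa only [Fintype.sum_prod_type] using this

theorem Du.vac (hg : Met g) (hK : ∀ i j, Smooth fun z => K z i j) (sy : ∀ z i j, K z i j = K z j i)
    (h : Du g K N X y) (q : Kq g K N X y) (l0 : P366RB.sq g X y < N y ^ 2) :
    Kv g K (aa g K N X) N X (pp K N X) y := by
  have N0 : 0 < N y := h.nn.lt_of_ne fun r => by
    have := (hg.g_nonneg y fun i => X i y).trans_lt l0
    rw [← r] at this
    simp at this
  have m0 : mu g K y = 0 := by
    have : N y * ∑ j, X j y * mom g K j y + mu g K y * ∑ j, X j y * lo g X j y = 0 := by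
      simp only [Finset.mul_sum, ← Finset.sum_add_distrib]
      exact Finset.sum_eq_zero fun j _ => by linear_combination X j y * h.par hg j
    rw [sq_lo, eq_neg_of_add_eq_zero_right h.dust] at this
    exact (mul_eq_zero.1 (by linarith : mu g K y * (N y ^ 2 - P366RB.sq g X y) = 0)).resolve_right
      (sub_pos.2 l0).ne'
  have J0 : ∀ j, mom g K j y = 0 := fun j => by simpa [m0, N0.ne'] using h.par hg j
  have sk : ∀ i j, aa g K N X y i j = -aa g K N X y j i := fun i j => by
    have := q.kil i j
    rw [Finset.sum_add_distrib] at this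
    rw [aa, aa, sy y j i]
    linarith
  have dN := contDiffAt_pd (k := ∞) q.smN (by norm_num)
  have dX := fun k => (q.smX k).differentiableAt (by simp)
  have dp : ∀ i j, pd i (pp K N X j) y - ∑ l, chr g l i j y * pp K N X l y =
      N y * (P366Y.C.rc g y i j + tr g K y * K y i j - ∑ k, ∑ l, up g k l y * K y i k * K y l j) +
        ∑ k, X k y * (cK g K i j k y - cK g K k i j y) -
        ∑ k, ∑ l, up g k l y * K y i k * aa g K N X y j l := fun i j => by
    have e := q.ee i j
    have e1 : ∑ k, K y i k * cd g X k j y = ∑ k, ∑ l, up g k l y * K y i k * aa g K N X y j l -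
        N y * ∑ k, ∑ l, up g k l y * K y i k * K y l j := by
      simp only [Finset.mul_sum, ← Finset.sum_sub_distrib]
      refine Finset.sum_congr rfl fun k _ => ?_
      rw [← hg.up_g_mul y k fun m => cd g X m j y, Finset.mul_sum]
      exact Finset.sum_congr rfl fun l _ => by rw [aa, sy y j l]; ring
    have e2 : ∑ k, ∑ l, K y i k * up g k l y * K y l j = ∑ k, ∑ l, up g k l y * K y i k * K y l j := by
      simp only [mul_comm (up g _ _ y)]
    have e3 : pd i (pp K N X j) y - ∑ l, chr g l i j y * pp K N X l y =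
        hess g N y i j + ∑ k, X k y * cK g K i j k y + ∑ k, K y k j * cd g X k i y := by
      unfold P366F.pp
      rw [pd_add ((dN j).differentiableAt (by simp))
        (DifferentiableAt.fun_sum fun k _ => ((hK j k).diff y).fun_mul (dX k)),
        pd_sum _ fun k _ => ((hK j k).diff y).fun_mul (dX k)]
      simp only [pd_mul ((hK _ _).diff y) (dX _), hess, cK, cd, mul_add, mul_sub, Finset.mul_sum,
        Finset.sum_add_distrib, Finset.sum_sub_distrib, sy y _ j]
      rw [Finset.sum_comm (f := fun l k => chr g l i j y * (K y l k * X k y)),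
        Finset.sum_comm (f := fun k l => K y j k * (chr g k i l y * X l y))]
      simp only [mul_comm, mul_left_comm]
      ring_nf
    rw [J0, J0, P366XR.EE, e2] at e
    simp only [Finset.sum_add_distrib, e1] at e
    simp only [e3, mul_sub, Finset.sum_sub_distrib]
    change _ + (∑ k, X k y * cK g K k i j y + _ + _) - _ = _ at e
    linarith
  refine ⟨q.smN, q.smX, fun i => (dN i).add (ContDiffAt.sum fun j _ =>
    (ContDiff.contDiffAt (hK i j)).mul (q.smX j)), fun i j => (ContDiffAt.sum fun k _ =>
      (ContDiff.contDiffAt (hg.sm j k)).mul ((contDiffAt_pd (k := ∞) (q.smX k) (by norm_num) i).add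
        (ContDiffAt.sum fun l _ => (ContDiff.contDiffAt (hg.sm_chr k i l)).mul (q.smX l)))).add
      (q.smN.mul (ContDiff.contDiffAt (hK i j))), N0, l0, fun i => (add_sub_cancel_right _ _).symm,
    fun i j => (add_sub_cancel_right _ _).symm, dp, ?_, sk, m0, J0⟩
  have k1 : ∑ i, ∑ j, ∑ k, ∑ l, up g i j y * (up g k l y * K y i k * K y l j) = normSq g K y :=
    Finset.sum_congr rfl fun i _ => Finset.sum_comm.trans (Finset.sum_congr rfl fun k _ =>
      Finset.sum_congr rfl fun j _ => Finset.sum_congr rfl fun l _ => by rw [sy y l j]; ring)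
  have k2 : ∑ i, ∑ j, ∑ k, ∑ l, up g i j y * (up g k l y * K y i k * aa g K N X y j l) = 0 := by
    refine self_eq_neg.1 ((sw4 _).trans ?_)
    simp only [← Finset.sum_neg_distrib]
    exact Finset.sum_congr rfl fun i _ => Finset.sum_congr rfl fun j _ => Finset.sum_congr rfl
      fun k _ => Finset.sum_congr rfl fun l _ => by rw [sk l j, sy y k i]; ring
  have k3 : ∀ k, ∑ i, ∑ j, up g i j y * (cK g K i j k y - cK g K k i j y) = mom g K k y := fun k => by
    rw [P366XR.mom_eq hg hK, P366XR.pd_tr hg hK]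
    simp only [mul_sub (up g _ _ y) (cK g K _ _ _ y), Finset.sum_sub_distrib, dvT, Matrix.trace,
      Matrix.diag, Matrix.mul_apply]
    congr 1 <;> rw [Finset.sum_comm] <;>
      refine Finset.sum_congr rfl fun i _ => Finset.sum_congr rfl fun j _ => ?_
    · rw [hg.up_sy j i, cK, funext fun z => sy z i k]
    · rw [hg.up_sy j i]; rfl
  have k4 : ∑ i, ∑ j, ∑ k, up g i j y * (X k y * (cK g K i j k y - cK g K k i j y)) = 0 := by
    rw [← P366P.rot3]
    exact Finset.sum_eq_zero fun k _ => by
      simp only [mul_left_comm _ (X k y), ← Finset.mul_sum, k3, J0, mul_zero]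
  have k5 : ∑ i, ∑ j, up g i j y * (N y * (P366Y.C.rc g y i j + tr g K y * K y i j -
      ∑ k, ∑ l, up g k l y * K y i k * K y l j)) = N y * (2 * mu g K y) := by
    rw [mu, P366P.scal_eq_tr hg, ← k1, mul_div_cancel₀ _ two_ne_zero, sq]
    simp only [mul_left_comm _ (N y), mul_left_comm _ (tr g K y), ← Finset.mul_sum, mul_add (up g _ _ y),
      mul_sub (up g _ _ y), Finset.sum_sub_distrib, Finset.sum_add_distrib]
    rfl
  simp only [dp, mul_sub (up g _ _ y), mul_add (up g _ _ y), Finset.sum_sub_distrib,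
    Finset.sum_add_distrib, k5, m0]
  simp only [Finset.mul_sum, k2, k4]
  simp

open P366M in
theorem du {M : Type} [Mfe n M] {Z : Dat n M} (h : Z.Ok) {e : Ch n M} (he : e ∈ At M)
    (hy : e.symm y ∈ Z.U) : Du (Z.g e) (Z.K e) (Z.Nc e) (Z.Xc e) y := by
  have F0 := (h.sub _ hy).le
  have dK := Z.D.smK.dt (e.symm y)
  refine ⟨?_, h.nn _ F0, ?_, ?_⟩
  · rw [covNorm_mom_rep Z.D.met he dK, mu_rep Z.D.met he]
    exact h.dec _ F0
  · rw [P366RB.sq, quad_rep he]
    exact sub_nonneg.1 (h.le _ F0)
  · simp only [mom_rep Z.D.met he dK, mu_rep Z.D.met he, mul_comm (repV e Z.X _ y), dot_rep he]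
    simpa only [mul_comm (Z.X _ _), loc] using h.dust _ hy

theorem ncc : NCC := fun _ _ _ Z _ h e he y u hy _ =>
  (du h he hy).ncc (Z.D.met.rep he) (h.eq e he y hy) u

theorem vac : VAC := fun _ _ _ Z _ h c e he y hy =>
  (du h he (c.sub hy)).vac (Z.D.met.rep he) (Z.D.smK e he) (P366M.rep_sy Z.D.syK e)
    (h.eq e he y (c.sub hy)) (by
      rw [P366RB.sq, P366M.quad_rep he]
      exact sub_pos.1 (c.pos _ hy))

end Vale.Agent.P366EN
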